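import Vale.Agent.P166F.Low.Model

/-!
P166: labellings with prescribed class sizes, and the sizes after moving the field rows.
-/

namespace Vale.Agent.P166F.Low.Sel

variable {κ : Type} [Fintype κ] [DecidableEq κ] {N M : ℕ}

lemma sum_csize (lbl : Fin N → κ) : ∑ j, csize lbl j = N := by
  simp only [csize]
  rw [← Finset.card_eq_sum_card_fiberwise (t := Finset.univ) fun i _ => Finset.mem_univ (lbl i)]
  simp

lemma exists_lbl {c : κ → ℕ} (h : ∑ j, c j = M) : ∃ lbl : Fin M → κ, ∀ j, csize lbl j = c j := by
  have e : (Σ j, Fin (c j)) ≃ Fin M := Fintype.equivFinOfCardEq (by simp [h])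
  refine ⟨fun i => (e.symm i).1, fun j => ?_⟩
  have hs : (Finset.univ.filter fun i => (e.symm i).1 = j) =
      (Finset.univ : Finset (Fin (c j))).map
        ⟨fun a => e ⟨j, a⟩, e.injective.comp sigma_mk_injective⟩ := by
    ext i
    simp only [Finset.mem_filter, Finset.mem_univ, true_and, Finset.mem_map,
      Function.Embedding.coeFn_mk]
    constructor
    · intro hi
      obtain ⟨x, rfl⟩ := e.surjective i
      rw [Equiv.symm_apply_apply] at hi
      obtain ⟨j', a⟩ := x
      cases hi
      exact ⟨a, rfl⟩
    · rintro ⟨a, rfl⟩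
      simp
  rw [csize, hs, Finset.card_map, Finset.card_univ, Fintype.card_fin]

/-- A labelling with the sizes `c`; the default label when the total is wrong. -/
noncomputable def mkLbl (f : κ) (c : κ → ℕ) (M : ℕ) : Fin M → κ :=
  if h : ∑ j, c j = M then (exists_lbl h).choose else fun _ => f

lemma csize_mkLbl (f : κ) {c : κ → ℕ} (h : ∑ j, c j = M) (j : κ) :
    csize (mkLbl f c M) j = c j := by
  rw [mkLbl, dif_pos h]
  exact (exists_lbl h).choose_spec j

lemma exists_base {e f : κ} {c : κ → ℕ} (h : ∑ j, c j = M) (he : Fintype.card (Fld e) ≤ c e) :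
    ∃ b : Base e f M, ∀ j, csize b.lbl j = c j := by
  obtain ⟨lbl, hl⟩ := exists_lbl h
  obtain ⟨row⟩ : Nonempty (Fld e ↪ {i : Fin M // lbl i = e}) :=
    Function.Embedding.nonempty_of_card_le (by
      rw [Fintype.card_subtype]
      exact he.trans_eq (hl e).symm)
  exact ⟨⟨lbl, fun x => (row x).1, Subtype.val_injective.comp row.injective, fun x => (row x).2⟩, hl⟩

/-- Two size functions with the same total agreeing off one point agree. -/
lemma eq_of_sum {c c' : κ → ℕ} (e : κ) (h : ∑ j, c j = ∑ j, c' j) (hne : ∀ j, j ≠ e → c j = c' j)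
    (j : κ) : c j = c' j := by
  by_cases hj : j = e
  · subst hj
    rw [← Finset.add_sum_erase _ _ (Finset.mem_univ j), ← Finset.add_sum_erase _ _ (Finset.mem_univ j),
      Finset.sum_congr rfl fun i hi => hne i (Finset.ne_of_mem_erase hi)] at h
    exact Nat.add_right_cancel h
  · exact hne j hj

variable {e f : κ}

/-- Off the class of the field rows, moving adds the slots sent there. -/
lemma csize_moved (b : Base e f N) (g : κ → κ) {j : κ} (hj : j ≠ e) :
    csize (b.moved g) j = csize b.lbl j +
      ((∑ s : Slot e, if g s.1 = j then 1 else 0) + ∑ s : Slot e, if lab e f s.1 = j then 1 else 0) := by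
  have hx : ∀ x, b.moved g (b.row x) =
      Sum.elim (fun j => g j.1) (fun j => lab e f j.1) x := fun x => by
    have h : ∃ x', b.row x' = b.row x := ⟨x, rfl⟩
    rw [Base.moved, dif_pos h, b.inj h.choose_spec]
  have ho : ∀ i, i ∉ Finset.univ.image b.row → b.moved g i = b.lbl i := fun i hi => by
    refine dif_neg fun ⟨x, hx'⟩ => hi ?_
    exact Finset.mem_image.2 ⟨x, Finset.mem_univ x, hx'⟩
  simp only [csize, Finset.card_filter]
  rw [← Finset.sum_add_sum_compl (Finset.univ.image b.row) fun i => if b.moved g i = j then 1 else 0,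
    ← Finset.sum_add_sum_compl (Finset.univ.image b.row) fun i => if b.lbl i = j then 1 else 0,
    Finset.sum_image fun x _ y _ h => b.inj h, Finset.sum_image fun x _ y _ h => b.inj h,
    Finset.sum_congr rfl fun i hi => (by rw [ho i (Finset.mem_compl.1 hi)] :
      (if b.moved g i = j then 1 else 0) = if b.lbl i = j then 1 else 0)]
  simp only [hx, b.inRest, if_neg (Ne.symm hj), Finset.sum_const_zero, zero_add,
    Fintype.sum_sum_type, Sum.elim_inl, Sum.elim_inr]
  conv_rhs => rw [add_comm]
  congr 1

lemma sum_slot_eq {j : κ} (hj : j ≠ e) :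
    (∑ s : Slot e, if s.1 = j then 1 else 0) = 1 := by
  rw [Finset.sum_eq_single (⟨j, hj⟩ : Slot e) (fun s _ hs => if_neg fun h => hs (Subtype.ext h))
    fun h => absurd (Finset.mem_univ _) h]
  simp

lemma sum_slot_lab (hef : e ≠ f) {j : κ} (hj : j ≠ e) :
    (∑ s : Slot e, if lab e f s.1 = j then 1 else 0) = if j = f then 0 else 1 := by
  by_cases hjf : j = f
  · subst hjf
    rw [if_pos rfl]
    refine Finset.sum_eq_zero fun s _ => if_neg ?_
    unfold lab
    split_ifs with h
    exacts [hef, h]
  · refine (Finset.sum_congr rfl fun s _ => ?_).trans ((sum_slot_eq hj).trans (if_neg hjf).symm)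
    unfold lab
    split_ifs with h1 h2 h3 <;> simp_all

lemma csize_plus (b : Base e f N) (hef : e ≠ f) {j : κ} (hj : j ≠ e) :
    csize b.plus j = csize b.lbl j + 1 + if j = f then 0 else 1 := by
  have h : csize b.plus j = csize (b.moved id) j := by
    simp only [csize, Finset.card_filter]
    rw [Fin.sum_univ_castSucc]
    simp [Base.plus, Ne.symm hj]
  rw [h, csize_moved b id hj, sum_slot_lab hef hj]
  simp only [id_eq, sum_slot_eq hj]
  ring

lemma csize_del (b : Base e f N) (hef : e ≠ f) (k : κ) {j : κ} (hj : j ≠ e) :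
    csize (b.del k) j = csize b.lbl j + (if j = f ∨ j = k then 0 else 1) + if j = f then 0 else 1 := by
  rw [Base.del, csize_moved b _ hj, sum_slot_lab hef hj, add_assoc]
  congr 2
  by_cases h : j = f ∨ j = k
  · rw [if_pos h]
    refine Finset.sum_eq_zero fun s _ => if_neg ?_
    split_ifs with h1
    · exact Ne.symm hj
    · rintro rfl
      exact h1 h
  · refine (Finset.sum_congr rfl fun s _ => ?_).trans ((sum_slot_eq hj).trans (if_neg h).symm)
    split_ifs with h1 h2 h3 <;> simp_all

end Vale.Agent.P166F.Low.Sel
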