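import Vale.Agent.P166F.Defs

/-!
P166: independent labels with the weights of the atoms, and the deviation of their counts.
-/

namespace Vale.Agent.P166F.Low.Sel

open scoped Classical

variable {K M : ℕ}

/-- The counts of the labels. -/
def cnt (ω : Fin M → Fin K) (k : Fin K) : ℕ := (Finset.univ.filter fun i => ω i = k).card

/-- One label of class `k` removed. -/
def decr1 (c : Fin K → ℕ) (k : Fin K) (i : Fin K) : ℕ := c i - if i = k then 1 else 0

/-- The average over independent labels. -/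
noncomputable def iid (a : Atoms K) (M : ℕ) (Θ : (Fin M → Fin K) → ℝ) : ℝ :=
  ∑ ω, (∏ i, a.wt (ω i)) * Θ ω

variable {a : Atoms K}

lemma iid_w_nonneg (a : Atoms K) (ω : Fin M → Fin K) : 0 ≤ ∏ i, a.wt (ω i) :=
  Finset.prod_nonneg fun i _ => (a.pos _).le

lemma iid_prod (a : Atoms K) (g : Fin K → ℝ) :
    iid a M (fun ω => ∏ i, g (ω i)) = (∑ k, a.wt k * g k) ^ M := by
  rw [iid, ← Fin.prod_const M, Fintype.prod_sum]
  simp only [Finset.prod_mul_distrib]

lemma iid_const (a : Atoms K) (b : ℝ) : iid a M (fun _ => b) = b := by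
  have h := iid_prod (M := M) a fun _ => 1
  simp only [Finset.prod_const_one, iid, mul_one, a.total, one_pow] at h
  rw [iid, ← Finset.sum_mul, h, one_mul]

lemma iid_add (Θ Θ' : (Fin M → Fin K) → ℝ) :
    iid a M (fun ω => Θ ω + Θ' ω) = iid a M Θ + iid a M Θ' := by
  simp only [iid, mul_add, Finset.sum_add_distrib]

lemma iid_mul_left (b : ℝ) (Θ : (Fin M → Fin K) → ℝ) :
    iid a M (fun ω => b * Θ ω) = b * iid a M Θ := by
  simp only [iid, Finset.mul_sum]
  exact Finset.sum_congr rfl fun ω _ => by ring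

lemma iid_sub (Θ Θ' : (Fin M → Fin K) → ℝ) :
    iid a M (fun ω => Θ ω - Θ' ω) = iid a M Θ - iid a M Θ' := by
  simp only [iid, mul_sub, Finset.sum_sub_distrib]

lemma iid_sum {ι : Type} (s : Finset ι) (Θ : ι → (Fin M → Fin K) → ℝ) :
    iid a M (fun ω => ∑ j ∈ s, Θ j ω) = ∑ j ∈ s, iid a M (Θ j) := by
  simp only [iid, Finset.mul_sum]
  exact Finset.sum_comm

lemma iid_mono {Θ Θ' : (Fin M → Fin K) → ℝ} (h : ∀ ω, Θ ω ≤ Θ' ω) : iid a M Θ ≤ iid a M Θ' :=
  Finset.sum_le_sum fun ω _ => mul_le_mul_of_nonneg_left (h ω) (iid_w_nonneg a ω)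

lemma abs_iid_le {Θ : (Fin M → Fin K) → ℝ} {B : ℝ} (h : ∀ ω, |Θ ω| ≤ B) : |iid a M Θ| ≤ B :=
  abs_le.2 ⟨(iid_const a (-B)).symm.trans_le (iid_mono fun ω => (abs_le.1 (h ω)).1),
    (iid_mono fun ω => (abs_le.1 (h ω)).2).trans_eq (iid_const a B)⟩

lemma iid_insert (i : Fin (M + 1)) (Θ : (Fin M → Fin K) → ℝ) :
    iid a (M + 1) (fun ω => Θ (ω ∘ i.succAbove)) = iid a M Θ := by
  rw [iid, ← (Fin.insertNthEquiv (fun _ => Fin K) i).sum_comp, Fintype.sum_prod_type]
  simp only [Fin.insertNthEquiv_apply, Fin.prod_univ_succAbove _ i, Fin.insertNth_apply_same,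
    Fin.insertNth_apply_succAbove, Function.comp_def, mul_assoc, ← Finset.mul_sum, ← Finset.sum_mul,
    a.total, one_mul, iid]

lemma cnt_succAbove (ω : Fin (M + 1) → Fin K) (i : Fin (M + 1)) :
    cnt (ω ∘ i.succAbove) = decr1 (cnt ω) (ω i) := by
  funext k
  simp only [cnt, decr1, Finset.card_filter, Function.comp_apply]
  rw [Fin.sum_univ_succAbove (fun j => if ω j = k then 1 else 0) i]
  by_cases h : ω i = k
  · rw [if_pos h, if_pos h.symm, Nat.add_sub_cancel_left]
  · rw [if_neg h, if_neg (Ne.symm h), zero_add, Nat.sub_zero]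

/-- A label deleted uniformly keeps the law. -/
lemma iid_del (H : (Fin K → ℕ) → ℝ) :
    iid a (M + 1) (fun ω => ∑ k, (cnt ω k : ℝ) / (M + 1) * H (decr1 (cnt ω) k)) =
      iid a M fun ω => H (cnt ω) := by
  have e : ∀ ω : Fin (M + 1) → Fin K, ∑ k, (cnt ω k : ℝ) / (M + 1) * H (decr1 (cnt ω) k) =
      ((M : ℝ) + 1)⁻¹ * ∑ i : Fin (M + 1), H (cnt (ω ∘ i.succAbove)) := fun ω => by
    simp only [cnt_succAbove]
    rw [← Finset.sum_fiberwise (Finset.univ : Finset (Fin (M + 1))) ω, Finset.mul_sum]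
    refine Finset.sum_congr rfl fun k _ => ?_
    rw [Finset.sum_congr rfl fun i hi => (by rw [(Finset.mem_filter.1 hi).2] :
      H (decr1 (cnt ω) (ω i)) = H (decr1 (cnt ω) k)), Finset.sum_const, nsmul_eq_mul, cnt]
    ring
  simp only [e, iid_mul_left, iid_sum, fun i : Fin (M + 1) => iid_insert (a := a) i fun ω => H (cnt ω),
    Finset.sum_const, Finset.card_univ, Fintype.card_fin, nsmul_eq_mul]
  push_cast
  field_simp

/-- Counts within `δ` of the weights. -/
def Good (a : Atoms K) (δ : ℝ) (M : ℕ) (c : Fin K → ℕ) : Prop :=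
  ∀ k, |(c k : ℝ) - a.wt k * M| ≤ δ * M

/-- Bad counts have exponentially small probability. -/
lemma iid_bad (a : Atoms K) {δ : ℝ} (hδ : 0 ≤ δ) (hδ1 : δ ≤ 1) :
    iid a M (fun ω => if Good a δ M (cnt ω) then 0 else 1) ≤
      2 * K * Real.exp (-(δ ^ 2 * M / 4)) := by
  set t := δ / 2
  have key : ∀ (k : Fin K) (u : ℝ), |u| = t →
      iid a M (fun ω => Real.exp (u * ((cnt ω k : ℝ) - a.wt k * M) - t * (δ * M))) ≤
        Real.exp (-(δ ^ 2 * M / 4)) := by
    intro k u hu
    have hw1 : a.wt k ≤ 1 := a.total ▸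
      Finset.single_le_sum (fun j _ => (a.pos j).le) (Finset.mem_univ k)
    have h1 : ∀ ω : Fin M → Fin K,
        Real.exp (u * ((cnt ω k : ℝ) - a.wt k * M) - t * (δ * M)) =
          Real.exp (-(t * (δ * M))) *
            ∏ i, Real.exp (u * ((if ω i = k then 1 else 0) - a.wt k)) := fun ω => by
      rw [← Real.exp_sum, ← Real.exp_add, ← Finset.mul_sum, Finset.sum_sub_distrib,
        Finset.sum_boole, Finset.sum_const, Finset.card_univ, Fintype.card_fin, nsmul_eq_mul, cnt]
      ring_nf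
    simp only [h1, iid_mul_left, iid_prod a fun j => Real.exp (u * ((if j = k then 1 else 0) - a.wt k))]
    have h2 : ∀ j : Fin K, Real.exp (u * ((if j = k then 1 else 0) - a.wt k)) ≤
        1 + u * ((if j = k then 1 else 0) - a.wt k) + t ^ 2 := fun j => by
      have hz : |(if j = k then (1 : ℝ) else 0) - a.wt k| ≤ 1 := by
        have := (a.pos k).le
        split_ifs <;> rw [abs_le] <;> constructor <;> linarith
      have hx : |u * ((if j = k then (1 : ℝ) else 0) - a.wt k)| ≤ t := by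
        rw [abs_mul, hu]
        exact mul_le_of_le_one_right (by positivity) hz
      have ht1 : t ≤ 1 := by simp only [t]; linarith
      have := (abs_le.1 (Real.abs_exp_sub_one_sub_id_le (hx.trans ht1))).2
      nlinarith [mul_self_le_mul_self (abs_nonneg _) hx, sq_abs (u * ((if j = k then (1 : ℝ) else 0) - a.wt k))]
    have h3 : ∑ j, a.wt j * Real.exp (u * ((if j = k then 1 else 0) - a.wt k)) ≤ Real.exp (t ^ 2) := by
      refine (Finset.sum_le_sum fun j _ => mul_le_mul_of_nonneg_left (h2 j) (a.pos j).le).trans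
        (le_trans (le_of_eq ?_) (Real.add_one_le_exp _))
      simp only [mul_add, mul_sub, Finset.sum_add_distrib, Finset.sum_sub_distrib, mul_ite, mul_one,
        mul_zero, Finset.sum_ite_eq', Finset.mem_univ, if_true, ← Finset.sum_mul, a.total]
      ring
    refine (mul_le_mul_of_nonneg_left (pow_le_pow_left₀
      (Finset.sum_nonneg fun j _ => mul_nonneg (a.pos j).le (Real.exp_pos _).le) h3 M)
      (Real.exp_pos _).le).trans (le_of_eq ?_)
    rw [← Real.exp_nat_mul, ← Real.exp_add]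
    congr 1
    ring
  have hind : ∀ ω : Fin M → Fin K, (if Good a δ M (cnt ω) then (0 : ℝ) else 1) ≤
      ∑ k, (Real.exp (t * ((cnt ω k : ℝ) - a.wt k * M) - t * (δ * M)) +
        Real.exp (-t * ((cnt ω k : ℝ) - a.wt k * M) - t * (δ * M))) := fun ω => by
    have hn : ∀ k : Fin K, 0 ≤ Real.exp (t * ((cnt ω k : ℝ) - a.wt k * M) - t * (δ * M)) +
        Real.exp (-t * ((cnt ω k : ℝ) - a.wt k * M) - t * (δ * M)) := fun k => by positivity
    split_ifs with h
    · exact Finset.sum_nonneg fun k _ => hn k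
    · simp only [Good, not_forall, not_le] at h
      obtain ⟨k, hk⟩ := h
      refine le_trans ?_ (Finset.single_le_sum (fun j _ => hn j) (Finset.mem_univ k))
      have ht : 0 ≤ t := by positivity
      rcases lt_abs.1 hk with h1 | h1
      · have h2 := mul_le_mul_of_nonneg_left h1.le ht
        exact le_add_of_le_of_nonneg (Real.one_le_exp (by linarith)) (Real.exp_pos _).le
      · have h2 := mul_le_mul_of_nonneg_left h1.le ht
        exact le_add_of_nonneg_of_le (Real.exp_pos _).le (Real.one_le_exp (by linarith))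
  refine (iid_mono hind).trans ?_
  rw [iid_sum]
  simp only [iid_add]
  refine (Finset.sum_le_sum fun k _ => add_le_add (key k t (abs_of_nonneg (by positivity)))
    (key k (-t) (by rw [abs_neg, abs_of_nonneg (by positivity : 0 ≤ t)]))).trans (le_of_eq ?_)
  rw [Finset.sum_const, Finset.card_univ, Fintype.card_fin, nsmul_eq_mul]
  ring

end Vale.Agent.P166F.Low.Sel
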