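import Vale.Agent.P166F.Low.Select.Top

/-!
P166: the telescoping averaged over sizes, feature sizes and coefficients gives one point with a low
gain and small defects.
-/

namespace Vale.Agent.P166F.Low.Sel

open MeasureTheory Filter
open scoped Topology
open Vale.Agent.P166N.Spectrum (OrthInvLaw)
open scoped Classical

variable {K : ℕ}

/-- The eighth root of the size. -/
noncomputable def root8 (n : ℕ) : ℝ := Real.sqrt (Real.sqrt (Real.sqrt n))

/-- The scale of the perturbation. -/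
noncomputable def scale (n : ℕ) : ℝ := root8 n ^ 3

lemma root8_nonneg (n : ℕ) : 0 ≤ root8 n := Real.sqrt_nonneg _

lemma scale_nonneg (n : ℕ) : 0 ≤ scale n := pow_nonneg (root8_nonneg n) 3

lemma root8_pow (n : ℕ) : root8 n ^ 8 = (n : ℝ) ∧ root8 n ^ 4 = Real.sqrt n := by
  have h : root8 n ^ 4 = Real.sqrt n := by
    rw [root8, show (4 : ℕ) = 2 * 2 by norm_num, pow_mul, Real.sq_sqrt (Real.sqrt_nonneg _),
      Real.sq_sqrt (Real.sqrt_nonneg _)]
  refine ⟨?_, h⟩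
  rw [show (8 : ℕ) = 4 * 2 by norm_num, pow_mul, h, Real.sq_sqrt (Nat.cast_nonneg n)]

lemma tendsto_root8 : Tendsto root8 atTop atTop :=
  Real.tendsto_sqrt_atTop.comp (Real.tendsto_sqrt_atTop.comp
    (Real.tendsto_sqrt_atTop.comp tendsto_natCast_atTop_atTop))

/-- The cube sits in the inner box. -/
lemma cube_inner {P : ℕ} {s : ℝ} (hs : 0 ≤ s) :
    IsProbabilityMeasure (cubeLaw (J := Unit) (P := P) s) ∧
      ∀ᵐ y ∂cubeLaw (J := Unit) (P := P) s, ∀ i, s / 2 ≤ y i ∧ y i ≤ 3 * s / 2 := by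
  have hφ : Measurable fun u : ℝ => s / 2 + s * u := by fun_prop
  have : IsProbabilityMeasure (volume.restrict (Set.Icc (0 : ℝ) 1)) := ⟨by simp⟩
  have := Measure.isProbabilityMeasure_map (μ := volume.restrict (Set.Icc (0 : ℝ) 1)) hφ.aemeasurable
  unfold cubeLaw
  refine ⟨inferInstance, ae_all_iff.2 fun k => ?_⟩
  set ν := (volume.restrict (Set.Icc (0 : ℝ) 1)).map fun u => s / 2 + s * u with hν
  have h1 : ∀ᵐ t ∂ν, s / 2 ≤ t ∧ t ≤ 3 * s / 2 := by
    rw [hν]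
    refine (ae_map_iff hφ.aemeasurable ?_).2 ?_
    · exact (measurableSet_le measurable_const measurable_id).inter
        (measurableSet_le measurable_id measurable_const)
    · filter_upwards [ae_restrict_mem (measurableSet_Icc (a := (0 : ℝ)) (b := 1))] with u hu
      constructor <;> nlinarith [hu.1, hu.2]
  exact (Measure.tendsto_eval_ae_ae (μ := fun _ : CIdx Unit P => ν) (i := k)).eventually h1

/-- The correction of the weights by the counts. -/
lemma cor_le (a : Atoms K) {M : ℕ} (hM : 0 < M) (H : (Fin M → Fin K) → Fin K → ℝ) (i0 : Fin K)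
    {δ CB Bn : ℝ} (hδ : 0 ≤ δ) (hδ1 : δ ≤ 1) (hCB : 0 ≤ CB) (hBn : 0 ≤ Bn)
    (hg : ∀ ω, Good a δ M (cnt ω) → ∀ k, |H ω k - H ω i0| ≤ CB)
    (hb : ∀ ω k, |H ω k - H ω i0| ≤ Bn) :
    iid a M (fun ω => ∑ k, ((cnt ω k : ℝ) / M - a.wt k) * H ω k) ≤
      K * δ * CB + K * Bn * (2 * K * Real.exp (-(δ ^ 2 * M / 4))) := by
  have hM' : (0 : ℝ) < M := by exact_mod_cast hM
  have h : ∀ ω, ∑ k, ((cnt ω k : ℝ) / M - a.wt k) * H ω k ≤
      K * δ * CB + K * Bn * (if Good a δ M (cnt ω) then 0 else 1) := by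
    intro ω
    have h0 : ∑ k, ((cnt ω k : ℝ) / M - a.wt k) = 0 := by
      rw [Finset.sum_sub_distrib, ← Finset.sum_div, a.total,
        show (∑ k, (cnt ω k : ℝ)) = (M : ℝ) by exact_mod_cast sum_csize ω, div_self hM'.ne', sub_self]
    have h1 : ∑ k, ((cnt ω k : ℝ) / M - a.wt k) * H ω k =
        ∑ k, ((cnt ω k : ℝ) / M - a.wt k) * (H ω k - H ω i0) := by
      simp only [mul_sub, Finset.sum_sub_distrib, ← Finset.sum_mul, h0, zero_mul, sub_zero]
    rw [h1]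
    by_cases hG : Good a δ M (cnt ω)
    · rw [if_pos hG, mul_zero, add_zero]
      refine (Finset.sum_le_card_nsmul _ _ (δ * CB) fun k _ => ?_).trans
        (le_of_eq (by simp [mul_assoc]))
      refine (le_abs_self _).trans ?_
      rw [abs_mul]
      refine mul_le_mul ?_ (hg ω hG k) (abs_nonneg _) hδ
      rw [show (cnt ω k : ℝ) / M - a.wt k = ((cnt ω k : ℝ) - a.wt k * M) / M by field_simp, abs_div,
        abs_of_pos hM', div_le_iff₀ hM']
      exact hG k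
    · rw [if_neg hG, mul_one]
      refine le_add_of_nonneg_of_le (by positivity) ((Finset.sum_le_card_nsmul _ _ Bn fun k _ => ?_).trans
        (le_of_eq (by simp)))
      refine (le_abs_self _).trans ?_
      rw [abs_mul]
      refine (mul_le_of_le_one_left (abs_nonneg _) ?_).trans (hb ω k)
      have c1 : (cnt ω k : ℝ) / M ≤ 1 := (div_le_one hM').2 (by
        exact_mod_cast (Finset.card_filter_le _ _).trans (le_of_eq (Finset.card_fin M)))
      have c2 : 0 ≤ (cnt ω k : ℝ) / M := by positivity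
      have w1 : a.wt k ≤ 1 := a.total ▸
        Finset.single_le_sum (fun j _ => (a.pos j).le) (Finset.mem_univ k)
      rw [abs_le]
      constructor <;> linarith [(a.pos k).le]
  refine (iid_mono h).trans ?_
  rw [iid_add, iid_const, iid_mul_left]
  exact (add_le_add_iff_left _).2 (mul_le_mul_of_nonneg_left (iid_bad a hδ hδ1) (by positivity))

variable {P n M D : ℕ} {a : Atoms K} {β : ℝ} {i0 : Fin K}
  {ν : (N : ℕ) → Measure (Fin N → Fin N → ℝ)} {s : ℝ} {y : CIdx Unit P → ℝ}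

/-- Crude bounds valid for all counts. -/
lemma incr_crude {C : ℝ}
    (hC : ∀ (M' : ℕ) c, (M' : ℝ) * Real.log 2 - C ≤ pres a β ν i0 n M' s y c ∧
      pres a β ν i0 n M' s y c ≤ (M' : ℝ) * Real.log 2 + span a β i0 * M' / 2 + C)
    (c : Fin K → ℕ) :
    -(span a β i0 * M / 2 + 2 * C) ≤ incr1 a β ν i0 n s y M D c ∧
      ∀ k, |pres a β ν i0 n M s y (lift i0 (decr1 c k) D) -
        pres a β ν i0 n M s y (lift i0 (decr1 c i0) D)| ≤ span a β i0 * M / 2 + 2 * C := by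
  refine ⟨?_, fun k => ?_⟩
  · have h1 := (hC (M + 1) (lift i0 c (D + 1))).1
    have h2 : ∑ k, a.wt k * pres a β ν i0 n M s y (lift i0 (decr1 c k) D) ≤
        (M : ℝ) * Real.log 2 + span a β i0 * M / 2 + C :=
      (Finset.sum_le_sum fun k _ => mul_le_mul_of_nonneg_left (hC M _).2 (a.pos k).le).trans_eq
        (by rw [← Finset.sum_mul, a.total, one_mul])
    rw [incr1]
    push_cast at h1
    linarith
  · rw [abs_le]
    constructor <;>
      linarith [(hC M (lift i0 (decr1 c k) D)).1, (hC M (lift i0 (decr1 c k) D)).2,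
        (hC M (lift i0 (decr1 c i0) D)).1, (hC M (lift i0 (decr1 c i0) D)).2]

/-- The counts of good labels are large. -/
lemma good_counts {δ' ε wm : ℝ} {ω : Fin (M + 1) → Fin K} (hω : Good a δ' (M + 1) (cnt ω))
    (hw : ∀ k, wm ≤ a.wt k) (hε : 0 < ε) (_hwm : 0 < wm) (hδ1 : δ' ≤ wm / 4) (hM : ε * n - 1 ≤ M)
    (hn1 : 32 ≤ wm * ε * n) (hD : (D : ℝ) + 1 ≤ a.wt i0 * ε * n / 2) :
    (∀ k, wm * ε * n / 4 ≤ (cnt ω k : ℝ) - 1) ∧ (∀ k, 2 ≤ cnt ω k) ∧ D + 3 ≤ cnt ω i0 := by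
  have hX : 0 ≤ ε * (n : ℝ) := by positivity
  have hlow : ∀ k, 3 / 4 * (a.wt k * (ε * n)) ≤ (cnt ω k : ℝ) := fun k => by
    have h := (abs_le.1 (hω k)).1
    push_cast at h
    have e1 := mul_le_mul_of_nonneg_left (show ε * (n : ℝ) ≤ M + 1 by linarith) (a.pos k).le
    have e2 := mul_le_mul_of_nonneg_right
      (hδ1.trans (div_le_div_of_nonneg_right (hw k) (by norm_num)))
      (show (0 : ℝ) ≤ (M : ℝ) + 1 by positivity)
    linarith
  have hlow' : ∀ k, 3 / 4 * (wm * (ε * n)) ≤ (cnt ω k : ℝ) := fun k => by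
    linarith [hlow k, mul_le_mul_of_nonneg_right (hw k) hX]
  refine ⟨fun k => by linarith [hlow' k], fun k => ?_, ?_⟩
  · have : (2 : ℝ) ≤ cnt ω k := by linarith [hlow' k]
    exact_mod_cast this
  · have : (D : ℝ) + 3 ≤ cnt ω i0 := by
      linarith [hlow i0, mul_le_mul_of_nonneg_right (hw i0) hX]
    exact_mod_cast this

/-- The weights of the base are close to the atoms. -/
lemma share_close {δ δ' c w X : ℝ} {m : ℝ} (hm : 0 < m) (hc : |c - w * (m + 1)| ≤ δ' * (m + 1))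
    (hδ2 : δ' ≤ δ / 2) (hM : X - 1 ≤ m) (hX : 32 ≤ X) (hn2 : 16 ≤ δ * X) (hw0 : 0 ≤ w) (hw1 : w ≤ 1) :
    |(c - 2) / m - w| ≤ δ := by
  rw [show (c - 2) / m - w = (c - 2 - w * m) / m by field_simp, abs_div, abs_of_pos hm,
    div_le_iff₀ hm, abs_le]
  have hδ : 0 ≤ δ := by
    by_contra hδ
    nlinarith
  obtain ⟨l1, l2⟩ := abs_le.1 hc
  have e1 := mul_le_mul_of_nonneg_right hδ2 (show (0 : ℝ) ≤ m + 1 by linarith)
  have e2 := mul_le_mul_of_nonneg_left hM hδ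
  have e3 := mul_le_mul_of_nonneg_left hX hδ
  constructor <;> linarith

/-- Good counts: the base, with its gain below the increment. -/
lemma good_step (hβ : 0 < β) (hmin : ∀ i, a.lam i0 ≤ a.lam i) (hν : ∀ N, OrthInvLaw N (ν N))
    (P : ℕ) {s δ δ' ε wm : ℝ} (hs : 0 ≤ s) (hn : M + 1 ≤ n) {ω : Fin (M + 1) → Fin K}
    (hω : Good a δ' (M + 1) (cnt ω)) (hw : ∀ k, wm ≤ a.wt k) (hε : 0 < ε) (hwm : 0 < wm)
    (hδ1 : δ' ≤ wm / 4) (hδ2 : δ' ≤ δ / 2) (hM : ε * n - 1 ≤ M) (hD : (D : ℝ) + 1 ≤ a.wt i0 * ε * n / 2)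
    (hD' : wm * ε * n / 4 ≤ (D : ℝ) + 1) (hn1 : 32 ≤ wm * ε * n) (hn2 : 16 ≤ δ * ε * n) :
    (D : ℝ) ≤ 3 / 4 * a.wt i0 * M ∧
    ∃ b : Base (some i0 : Option (Fin K)) none M, csize b.lbl none = D ∧
      (∀ l, l ≠ i0 → |(csize b.lbl (some l) : ℝ) / M - a.wt l| ≤ δ) ∧
      ∀ y : CIdx Unit P → ℝ, y ∈ PBox s →
        bgain a β ν i0 n s y b ≤ incr1 a β ν i0 n s y M D (cnt ω) ∧
        -(4 * K * span a β i0 / (wm * ε)) ≤ incr1 a β ν i0 n s y M D (cnt ω) ∧
        ∀ k, |pres a β ν i0 n M s y (lift i0 (decr1 (cnt ω) k) D) -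
          pres a β ν i0 n M s y (lift i0 (decr1 (cnt ω) i0) D)| ≤ 4 * K * span a β i0 / (wm * ε) := by
  have hS : 0 ≤ span a β i0 := (dlA_mem a hβ hmin none).1.trans (dlA_mem a hβ hmin none).2
  have hw1 : ∀ k, a.wt k ≤ 1 := fun k => a.total ▸
    Finset.single_le_sum (fun j _ => (a.pos j).le) (Finset.mem_univ k)
  have hX : 0 ≤ ε * (n : ℝ) := by positivity
  have hεn : 32 ≤ ε * n := by
    linarith [mul_le_mul_of_nonneg_right ((hw i0).trans (hw1 i0)) hX]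
  have hn0 : (0 : ℝ) < n := pos_of_mul_pos_right (lt_of_lt_of_le (by norm_num) hn1) (by positivity)
  have hM0 : (0 : ℝ) < M := by linarith
  have hMn : (M : ℝ) ≤ n := by exact_mod_cast (Nat.le_succ M).trans hn
  obtain ⟨hA, h2, hD3⟩ := good_counts hω hw hε hwm hδ1 hM hn1 hD
  refine ⟨by linarith [mul_le_mul_of_nonneg_left hM (a.pos i0).le, hw1 i0,
    mul_le_mul_of_nonneg_right (hw i0) hX], ?_⟩
  obtain ⟨b, hb, hstep⟩ := step hβ hmin hν P hn hs (c := cnt ω) (sum_csize ω) h2 hD3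
    (A := wm * ε * n / 4) (by positivity) hD' hA
  refine ⟨b, by rw [hb none]; rfl, fun l hl => ?_, fun y hy => ?_⟩
  · rw [hb (some l)]
    simp only [baseSizes, Option.elim_some, if_neg hl, Nat.cast_sub (h2 l), Nat.cast_ofNat]
    exact share_close hM0 (by simpa using hω l) hδ2 hM hεn (by linarith) (a.pos l).le (hw1 l)
  · obtain ⟨s1, s2, s3⟩ := hstep y hy
    have hX' : 2 * (K : ℝ) * (span a β i0 * M / (2 * (wm * ε * n / 4))) ≤
        4 * K * span a β i0 / (wm * ε) := by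
      calc 2 * (K : ℝ) * (span a β i0 * M / (2 * (wm * ε * n / 4)))
          ≤ 2 * (K : ℝ) * (span a β i0 * n / (2 * (wm * ε * n / 4))) := by gcongr
        _ = _ := by field_simp
    exact ⟨s1, (neg_le_neg hX').trans (s2.trans s1), fun k => (s3 k).trans hX'⟩

/-- The defect bound of one base system. -/
lemma exists_err {β : ℝ} (hβ : 0 < β) (hmin : ∀ i, a.lam i0 ≤ a.lam i)
    (hν : ∀ N, OrthInvLaw N (ν N)) (P : ℕ) :
    ∃ C : ℝ, 0 ≤ C ∧ ∀ κ : ℝ, 0 < κ → ∀ᶠ n : ℕ in atTop, ∀ M : ℕ, κ * n ≤ M → M ≤ n → 1 ≤ M →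
      ∀ lbl : Fin M → Option (Fin K),
      ∃ err : (CIdx Unit P → ℝ) → ℝ, (∀ y, 0 ≤ err y) ∧ Integrable err (cubeLaw (scale n)) ∧
        ∫ y, err y ∂cubeLaw (scale n) ≤ C * (2 + 1 / Real.sqrt κ) / root8 n ∧
        ∀ y : CIdx Unit P → ℝ, (∀ i, scale n / 2 ≤ y i ∧ y i ≤ 3 * scale n / 2) →
          (∀ j, (lsys (dlA a β i0) n lbl none (ν M) (hν M)).expect (scale n) y (n := 1) (fun O =>
            |O 0 0 j - (lsys (dlA a β i0) n lbl none (ν M) (hν M)).expect (scale n) y (n := 1)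
              fun O' => O' 0 0 j|) ≤ err y) ∧
          ∀ (m : ℕ) (l : Fin m) (Φ : OArr Unit m → ℝ) (B : ℝ), Continuous Φ → (∀ O, |Φ O| ≤ B) →
            ∀ e : Mon Unit P,
              |(m : ℝ) * (lsys (dlA a β i0) n lbl none (ν M) (hν M)).expect (scale n) y
                  (fun O : OArr Unit (m + 1) => Φ (osub O Fin.castSucc) *
                    monom (fun j => (e.1 j : ℕ)) (O l.castSucc (Fin.last m))) -
                ((lsys (dlA a β i0) n lbl none (ν M) (hν M)).expect (scale n) y Φ *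
                    (lsys (dlA a β i0) n lbl none (ν M) (hν M)).expect (scale n) y
                      (fun O : OArr Unit 2 => monom (fun j => (e.1 j : ℕ)) (O 0 1)) +
                  ∑ l' ∈ Finset.univ.erase l, (lsys (dlA a β i0) n lbl none (ν M) (hν M)).expect
                    (scale n) y fun O : OArr Unit m => Φ O * monom (fun j => (e.1 j : ℕ)) (O l l'))| ≤
                B * err y := by
  obtain ⟨Cg, hCg⟩ := gg_avg Unit P
  obtain ⟨Cd, hCd⟩ := pmass_dev (κ := Option (Fin K)) P (span a β i0)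
  refine ⟨|Cg| * (1 + |Cd|), by positivity, fun κ hκ => ?_⟩
  set q := 2 + 1 / Real.sqrt κ
  have hq : 1 ≤ q := le_add_of_le_of_nonneg (by norm_num) (by positivity)
  set C' := (1 + |Cd|) * q with hC'
  have hC'1 : 1 ≤ C' := one_le_mul_of_one_le_of_one_le (le_add_of_nonneg_right (abs_nonneg _)) hq
  filter_upwards [tendsto_root8.eventually_ge_atTop (4 * C')] with n hn M hκM hMn hM1 lbl
  set r := root8 n with hr
  have hr1 : 1 ≤ r := by linarith
  have hsσ : 4 * Real.sqrt (C' ^ 2 * r ^ 4) ≤ scale n := by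
    rw [show C' ^ 2 * r ^ 4 = (C' * r ^ 2) ^ 2 by ring, Real.sqrt_sq (by positivity), scale, ← hr]
    nlinarith [mul_le_mul_of_nonneg_right hn (sq_nonneg r)]
  obtain ⟨err, h0, hi, hint, herr⟩ := hCg (lsys (dlA a β i0) n lbl none (ν M) (hν M)) (scale n)
    (C' ^ 2 * r ^ 4) (one_le_mul_of_one_le_of_one_le (one_le_pow₀ hC'1) (one_le_pow₀ hr1)) hsσ
    fun y hy => by
      rw [(lsys_press (dlA a β i0) n lbl none (scale n) y (hν M)).2]
      refine (hCd M n _ lbl none (scale n) y (ν M) (hν M) hMn hM1 (fun j => ?_) (scale_nonneg n) hy).trans ?_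
      · obtain ⟨d1, d2⟩ := dlA_mem a hβ hmin j
        rw [abs_of_nonneg d1]; exact d2
      have hsM : Real.sqrt κ * r ^ 4 ≤ Real.sqrt M := by
        rw [hr, (root8_pow n).2, ← Real.sqrt_mul hκ.le]
        exact Real.sqrt_le_sqrt hκM
      have hMr : Real.sqrt M ≤ r ^ 4 := by
        rw [hr, (root8_pow n).2]; exact Real.sqrt_le_sqrt (by exact_mod_cast hMn)
      have hsk : 0 < Real.sqrt κ := Real.sqrt_pos.2 hκ
      have h1 : scale n ^ 2 / Real.sqrt M ≤ r ^ 4 / Real.sqrt κ := by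
        rw [div_le_div_iff₀ (lt_of_lt_of_le (by positivity) hsM) hsk, scale, ← hr]
        calc (r ^ 3) ^ 2 * Real.sqrt κ = r ^ 2 * (Real.sqrt κ * r ^ 4) := by ring
          _ ≤ r ^ 4 * Real.sqrt M :=
            mul_le_mul (pow_le_pow_right₀ hr1 (by norm_num)) hsM (by positivity) (by positivity)
      calc Cd * (Real.sqrt M + scale n + scale n ^ 2 / Real.sqrt M)
          ≤ |Cd| * (r ^ 4 + r ^ 4 + r ^ 4 / Real.sqrt κ) := by
            refine mul_le_mul (le_abs_self _) (add_le_add (add_le_add hMr ?_) h1) ?_ (abs_nonneg _)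
            · exact pow_le_pow_right₀ hr1 (by norm_num)
            · have := scale_nonneg n; positivity
        _ = |Cd| * q * r ^ 4 := by simp only [q]; ring
        _ ≤ C' * r ^ 4 := mul_le_mul_of_nonneg_right
            (mul_le_mul_of_nonneg_right (le_add_of_nonneg_left zero_le_one) (by positivity)) (by positivity)
        _ ≤ _ := mul_le_mul_of_nonneg_right (le_self_pow₀ hC'1 two_ne_zero) (by positivity)
  refine ⟨err, h0, hi, hint.trans ?_, fun y hy => herr y hy⟩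
  rw [show C' ^ 2 * r ^ 4 = (C' * r ^ 2) ^ 2 by ring, Real.sqrt_sq (by positivity), scale, ← hr]
  calc Cg * (C' * r ^ 2) / r ^ 3 ≤ |Cg| * (C' * r ^ 2) / r ^ 3 := by
        gcongr; exact le_abs_self _
    _ = _ := by rw [hC']; field_simp

lemma small_bad {n Bd ax η q : ℝ} (hn : 1 ≤ n) (hB : 0 ≤ Bd) (hx : 0 ≤ ax) (hη : 0 ≤ η) (hq : 0 ≤ q)
    (h : ∀ g : ℝ, g ≤ (K + 1) * (Bd + ax + η + 1) → g * n * q ≤ η / 64) :
    K * (Bd * n) * q ≤ η / 64 ∧ (Bd * n + ax + η) * q ≤ η / 64 := by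
  refine ⟨?_, le_trans (mul_le_mul_of_nonneg_right ?_ hq) (h (Bd + ax + η) ?_)⟩
  · rw [← mul_assoc]
    exact h _ (mul_le_mul (le_add_of_nonneg_right zero_le_one) (by linarith) hB (by positivity))
  · nlinarith
  · exact le_trans (by linarith) (le_mul_of_one_le_left (by positivity)
      (le_add_of_nonneg_left (Nat.cast_nonneg K)))

lemma top_arith {x η ε C₁ : ℝ} {M₀ n : ℕ} (hM : (M₀ : ℝ) ≤ ε * n) (hεx : ε * |x| ≤ η / 64)
    (hεh : ε ≤ 1 / 2) (hη : 0 ≤ η) (hC : 2 * C₁ ≤ n * (η / 64)) :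
    (n : ℝ) * (x + η / 64) + C₁ + C₁ ≤ ((n : ℝ) - M₀) * (x + η / 8) := by
  have h1 : (M₀ : ℝ) * x ≤ n * (η / 64) :=
    calc (M₀ : ℝ) * x ≤ ε * n * |x| :=
          (mul_le_mul_of_nonneg_left (le_abs_self x) (Nat.cast_nonneg _)).trans
            (mul_le_mul_of_nonneg_right hM (abs_nonneg x))
      _ = n * (ε * |x|) := by ring
      _ ≤ _ := mul_le_mul_of_nonneg_left hεx (Nat.cast_nonneg n)
  have h2 : (M₀ : ℝ) * η ≤ n / 2 * η := mul_le_mul_of_nonneg_right (hM.trans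
    ((mul_le_mul_of_nonneg_right hεh (Nat.cast_nonneg n)).trans (le_of_eq (by ring)))) hη
  linarith [mul_nonneg (Nat.cast_nonneg n : (0 : ℝ) ≤ n) hη]

lemma top_le {Cs X ℓ' : ℝ}
    (h : iid a n (fun ω => pres a β ν i0 n n s (0 : CIdx Unit P → ℝ) (lift i0 (cnt ω) D)) ≤
      n * Real.log 2 + n * ℓ')
    (hl : ℓ' ≤ X)
    (hC : ∀ c, |pres a β ν i0 n n s y c - pres a β ν i0 n n s (0 : CIdx Unit P → ℝ) c| ≤ Cs) :
    avgP a β ν i0 n s y n D ≤ n * Real.log 2 + (n * X + Cs) := by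
  have h1 : avgP a β ν i0 n s y n D ≤ iid a n (fun ω =>
      pres a β ν i0 n n s (0 : CIdx Unit P → ℝ) (lift i0 (cnt ω) D) + Cs) :=
    iid_mono fun ω => by linarith [(abs_le.1 (hC (lift i0 (cnt ω) D))).2]
  rw [iid_add, iid_const] at h1
  linarith [mul_le_mul_of_nonneg_left hl (Nat.cast_nonneg n : (0 : ℝ) ≤ n)]

lemma bad_prob {δ ε : ℝ} (h : ε * n - 1 ≤ M) :
    2 * (K : ℝ) * Real.exp (-(δ ^ 2 * ((M + 1 : ℕ) : ℝ) / 4)) ≤
      2 * K * Real.exp (-(δ ^ 2 * ε / 4 * n)) := by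
  refine mul_le_mul_of_nonneg_left (Real.exp_le_exp.2 ?_) (by positivity)
  push_cast
  linarith [mul_le_mul_of_nonneg_left (show ε * (n : ℝ) ≤ M + 1 by linarith) (sq_nonneg δ)]

lemma n_scale (hr : 1 ≤ root8 n) : scale n ^ 2 ≤ (n : ℝ) := by
  rw [scale, ← pow_mul, ← (root8_pow n).1]
  exact pow_le_pow_right₀ hr (by norm_num)

lemma crude_n {C Bd : ℝ} (hn : M + 1 ≤ n) (hS : 0 ≤ span a β i0) (hC0 : 0 ≤ C)
    (hBd : Bd = span a β i0 / 2 + 2 * C) (hs : s ^ 2 ≤ (n : ℝ))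
    (hC : ∀ (M' : ℕ) c, (M' : ℝ) * Real.log 2 - C * s ^ 2 ≤ pres a β ν i0 n M' s y c ∧
      pres a β ν i0 n M' s y c ≤ (M' : ℝ) * Real.log 2 + span a β i0 * M' / 2 + C * s ^ 2)
    (c : Fin K → ℕ) :
    -(Bd * n) ≤ incr1 a β ν i0 n s y M D c ∧
      ∀ k, |pres a β ν i0 n M s y (lift i0 (decr1 c k) D) -
        pres a β ν i0 n M s y (lift i0 (decr1 c i0) D)| ≤ Bd * n := by
  obtain ⟨h1, h2⟩ := incr_crude (M := M) (D := D) hC c
  have e : span a β i0 * M ≤ span a β i0 * n :=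
    mul_le_mul_of_nonneg_left (by exact_mod_cast (Nat.le_succ M).trans hn) hS
  have e2 := mul_le_mul_of_nonneg_left hs hC0
  have hle : span a β i0 * M / 2 + 2 * (C * s ^ 2) ≤ Bd * n := by rw [hBd]; linarith
  exact ⟨(neg_le_neg hle).trans h1, fun k => (h2 k).trans hle⟩

/-- The telescoping forces a positive averaged defect when no point qualifies. -/
lemma avg_defect (hβ : 0 ≤ β) (hν : ∀ N, OrthInvLaw N (ν N)) {M₀ d : ℕ} (hM₀ : M₀ ≤ n)
    {δ x η CB Bn C₁ lam q T : ℝ} {err : (M : ℕ) → ℕ → (Fin (M + 1) → Fin K) → ℝ}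
    (hδ : 0 ≤ δ) (hδ1 : δ ≤ 1) (hCB : 0 ≤ CB) (hBn : 0 ≤ Bn) (hlam : 0 ≤ lam) (hη : 0 ≤ η)
    (hC : ∀ M c, |pres a β ν i0 n M s y c - pres a β ν i0 n M s (0 : CIdx Unit P → ℝ) c| ≤ C₁)
    (hlo : ∀ (M : ℕ) c, (M : ℝ) * Real.log 2 - C₁ ≤ pres a β ν i0 n M s y c)
    (hup : ∀ D, avgP a β ν i0 n s y n D ≤ (n : ℝ) * Real.log 2 + T)
    (hq : ∀ M ∈ Finset.Ico M₀ n, 2 * (K : ℝ) * Real.exp (-(δ ^ 2 * ((M + 1 : ℕ) : ℝ) / 4)) ≤ q)
    (hg : ∀ M ∈ Finset.Ico M₀ n, ∀ D ∈ Finset.Ico d (2 * d), ∀ ω : Fin (M + 1) → Fin K,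
      Good a δ (M + 1) (cnt ω) → ∀ k, |pres a β ν i0 n M s y (lift i0 (decr1 (cnt ω) k) D) -
        pres a β ν i0 n M s y (lift i0 (decr1 (cnt ω) i0) D)| ≤ CB)
    (hb : ∀ M ∈ Finset.Ico M₀ n, ∀ (D : ℕ) (c : Fin K → ℕ), -Bn ≤ incr1 a β ν i0 n s y M D c ∧
      ∀ k, |pres a β ν i0 n M s y (lift i0 (decr1 c k) D) -
        pres a β ν i0 n M s y (lift i0 (decr1 c i0) D)| ≤ Bn)
    (h0 : ∀ M D ω, 0 ≤ err M D ω)
    (hlb : ∀ M ∈ Finset.Ico M₀ n, ∀ D ∈ Finset.Ico d (2 * d), ∀ ω : Fin (M + 1) → Fin K,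
      Good a δ (M + 1) (cnt ω) → x + η / 2 ≤ incr1 a β ν i0 n s y M D (cnt ω) + lam * err M D ω)
    (e1 : K * δ * CB + K * Bn * q ≤ η / 32) (e2 : (Bn + |x| + η) * q ≤ η / 64)
    (hX : T + C₁ ≤ ((n : ℝ) - M₀) * (x + η / 8)) (hY : 2 * C₁ ≤ (d : ℝ) * (η / 32)) :
    ((n : ℝ) - M₀) * d * (η / 4) ≤
      lam * ∑ M ∈ Finset.Ico M₀ n, ∑ D ∈ Finset.Ico d (2 * d), iid a (M + 1) (err M D) := by
  have hsum := sum_incr (y := y) (d := d) hβ hν hM₀ (e₂ := η / 32) hC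
    (fun D => (iid_const a _).symm.trans_le (iid_mono fun ω => hlo M₀ _)) hup
    fun M hM D hD => by
      have h := cor_le a (Nat.succ_pos M)
        (fun ω k => pres a β ν i0 n M s y (lift i0 (decr1 (cnt ω) k) D)) i0 hδ hδ1 hCB hBn
        (hg M hM D hD) fun ω k => (hb M hM D (cnt ω)).2 k
      have h2 := mul_le_mul_of_nonneg_left (hq M hM) (by positivity : 0 ≤ (K : ℝ) * Bn)
      push_cast at h h2
      linarith
  have hlb' : ∀ M ∈ Finset.Ico M₀ n, ∀ D ∈ Finset.Ico d (2 * d), x + η / 2 - η / 64 ≤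
      iid a (M + 1) (fun ω => incr1 a β ν i0 n s y M D (cnt ω)) + lam * iid a (M + 1) (err M D) := by
    intro M hM D hD
    have h : ∀ ω, x + η / 2 - (Bn + |x| + η) * (if Good a δ (M + 1) (cnt ω) then 0 else 1) ≤
        incr1 a β ν i0 n s y M D (cnt ω) + lam * err M D ω := fun ω => by
      by_cases hω : Good a δ (M + 1) (cnt ω)
      · rw [if_pos hω, mul_zero, sub_zero]
        exact hlb M hM D hD ω hω
      · rw [if_neg hω, mul_one]
        linarith [(hb M hM D (cnt ω)).1, mul_nonneg hlam (h0 M D ω), le_abs_self x]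
    have h' := iid_mono (a := a) h
    rw [iid_sub, iid_const, iid_mul_left, iid_add, iid_mul_left] at h'
    have h2 := mul_le_mul_of_nonneg_left ((iid_bad a hδ hδ1 (M := M + 1)).trans (hq M hM))
      (by positivity : 0 ≤ Bn + |x| + η)
    linarith
  have hall := Finset.sum_le_sum fun M hM => Finset.sum_le_sum fun D hD => hlb' M hM D hD
  simp only [Finset.sum_add_distrib, ← Finset.mul_sum, Finset.sum_const, Nat.card_Ico, nsmul_eq_mul,
    show 2 * d - d = d by omega, Nat.cast_sub hM₀] at hall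
  have hpos : (0 : ℝ) ≤ (n : ℝ) - M₀ := sub_nonneg.2 (by exact_mod_cast hM₀)
  have hN' := mul_le_mul_of_nonneg_left hX (Nat.cast_nonneg d : (0 : ℝ) ≤ d)
  have hN'' := mul_le_mul_of_nonneg_left hY hpos
  have hN3 := mul_nonneg (mul_nonneg hpos (Nat.cast_nonneg d : (0 : ℝ) ≤ d)) hη
  linarith

/-- The size of the perturbation is negligible. -/
lemma scale_small {C κ η lam g : ℝ} (hC : 0 ≤ C) (hκ : 0 < κ) (hη : 0 < η) (hlam : 0 ≤ lam) (hg : 0 ≤ g)
    (hr : 1 + C * (64 / (κ * η) + 128 / η) + 16 * lam * g / η ≤ root8 n) :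
    1 ≤ root8 n ∧ 2 * (C * scale n ^ 2) ≤ n * (η / 64) ∧
      2 * (C * scale n ^ 2) ≤ κ * n * (η / 32) ∧ lam * (g / root8 n) ≤ η / 16 := by
  set r := root8 n with hrdef
  have u1 : 0 ≤ C * (64 / (κ * η)) := by positivity
  have u2 : 0 ≤ C * (128 / η) := by positivity
  have u3 : 0 ≤ 16 * lam * g / η := by positivity
  rw [mul_add] at hr
  have hr1 : 1 ≤ r := by linarith
  have hsq : r ≤ r ^ 2 := le_self_pow₀ hr1 two_ne_zero
  have e : C * scale n ^ 2 = C * r ^ 6 := by rw [scale, ← hrdef]; ring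
  have e2 : (n : ℝ) = r ^ 2 * r ^ 6 := by rw [hrdef, ← pow_add, (root8_pow n).1]
  refine ⟨hr1, ?_, ?_, ?_⟩
  · calc 2 * (C * scale n ^ 2) = C * (128 / η) * (η / 64) * r ^ 6 := by rw [e]; field_simp; ring
      _ ≤ r ^ 2 * (η / 64) * r ^ 6 := by gcongr; linarith
      _ = n * (η / 64) := by rw [e2]; ring
  · calc 2 * (C * scale n ^ 2) = C * (64 / (κ * η)) * (κ * (η / 32)) * r ^ 6 := by
          rw [e]; field_simp; ring
      _ ≤ r ^ 2 * (κ * (η / 32)) * r ^ 6 := by gcongr; linarith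
      _ = κ * n * (η / 32) := by rw [e2]; ring
  · have h : 16 * lam * g / η ≤ r := by linarith
    rw [div_le_iff₀ hη] at h
    rw [← mul_div_assoc, div_le_iff₀ (by linarith : 0 < r)]
    linarith

lemma exp_small (G : ℝ) {c t : ℝ} (hc : 0 < c) (ht : 0 < t) :
    ∀ᶠ n : ℕ in atTop, G * ((n : ℝ) * Real.exp (-(c * n))) ≤ t := by
  have h := ((Real.tendsto_pow_mul_exp_neg_atTop_nhds_zero 1).comp
    (tendsto_natCast_atTop_atTop.const_mul_atTop hc)).const_mul (G / c)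
  rw [mul_zero] at h
  filter_upwards [h.eventually (eventually_le_nhds ht)] with n hn
  refine (le_of_eq ?_).trans hn
  simp only [Function.comp_apply, pow_one]
  field_simp

/-- The sizes over which the increments are averaged. -/
lemma grid_facts {ε wm w0 : ℝ} (hε : 0 < ε) (hεh : ε ≤ 1 / 2) (hwm : 0 < wm) (hw : wm ≤ w0)
    (hw1 : w0 ≤ 1) (hn : 32 ≤ wm * ε * n) :
    ⌊ε * n⌋₊ < n ∧ (⌊ε * n⌋₊ : ℝ) ≤ ε * n ∧ wm * ε / 8 * n ≤ (⌊w0 * ε * n / 4⌋₊ : ℝ) ∧
      (0 : ℝ) < ⌊w0 * ε * n / 4⌋₊ ∧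
      (∀ M ∈ Finset.Ico ⌊ε * n⌋₊ n,
        M + 1 ≤ n ∧ ε * n - 1 ≤ M ∧ wm * ε / 8 * n ≤ M ∧ 1 ≤ M) ∧
      ∀ D ∈ Finset.Ico ⌊w0 * ε * n / 4⌋₊ (2 * ⌊w0 * ε * n / 4⌋₊),
        (D : ℝ) + 1 ≤ w0 * ε * n / 2 ∧ wm * ε * n / 4 ≤ (D : ℝ) + 1 ∧ wm * ε / 8 * n ≤ D := by
  have hX : 0 ≤ ε * (n : ℝ) := by positivity
  have e1 := mul_le_mul_of_nonneg_right hw hX
  have e2 := mul_le_of_le_one_left hX (hw.trans hw1)
  have e3 := mul_le_mul_of_nonneg_right hεh (Nat.cast_nonneg n : (0 : ℝ) ≤ n)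
  have hf := Nat.floor_le hX
  have hw0 : 0 ≤ w0 * ε * n / 4 := by
    have := hwm.le.trans hw
    positivity
  have g1 := Nat.sub_one_lt_floor (w0 * ε * n / 4)
  have g2 := Nat.floor_le hw0
  set d := ⌊w0 * ε * n / 4⌋₊
  refine ⟨by exact_mod_cast (show (⌊ε * n⌋₊ : ℝ) < n by linarith), hf, by linarith, by linarith,
    fun M hM => ?_, fun D hD => ?_⟩
  · obtain ⟨m1, m2⟩ := Finset.mem_Ico.1 hM
    have h1 : ε * n - 1 ≤ (M : ℝ) :=
      ((Nat.sub_one_lt_floor (ε * n)).le.trans (by exact_mod_cast m1))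
    have h2 : (1 : ℝ) ≤ M := by linarith
    exact ⟨m2, h1, by linarith, by exact_mod_cast h2⟩
  · obtain ⟨d1, d2⟩ := Finset.mem_Ico.1 hD
    have h1 : (D : ℝ) + 1 ≤ 2 * d := by exact_mod_cast d2
    have h2 : (d : ℝ) ≤ D := by exact_mod_cast d1
    exact ⟨by linarith, by linarith, by linarith⟩

/-- A low pressure at a large size gives a base system with a low gain and small defects. -/
theorem exists_point (a : Atoms K) {β : ℝ} (hβ : 0 < β) {i0 : Fin K}
    (hmin : ∀ i, a.lam i0 ≤ a.lam i) {blk : (N : ℕ) → Fin N → Fin K} (hb : Balanced a blk)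
    {ν : (N : ℕ) → Measure (Fin N → Fin N → ℝ)} (hν : ∀ N, OrthInvLaw N (ν N)) {ℓ η : ℝ}
    (hη : 0 < η) :
    ∃ κ : ℝ, 0 < κ ∧ ∀ (P : ℕ) (τ δ : ℝ), 0 < τ → 0 < δ → ∀ᶠ n in atTop,
      meanPress a β blk ν n ≤ ℓ - η →
      ∃ (M D : ℕ) (b : Base (some i0 : Option (Fin K)) none M) (y : CIdx Unit P → ℝ),
        M + 1 ≤ n ∧ κ * n ≤ M ∧ y ∈ PBox (scale n) ∧ csize b.lbl none = D ∧ κ * n ≤ D ∧
        (D : ℝ) ≤ 3 / 4 * a.wt i0 * M ∧
        (∀ l, l ≠ i0 → |(csize b.lbl (some l) : ℝ) / M - a.wt l| ≤ δ) ∧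
        β * a.lam i0 / 2 + bgain a β ν i0 n (scale n) y b ≤ ℓ - η / 2 ∧
        (∀ j, (lsys (dlA a β i0) n b.lbl none (ν M) (hν M)).expect (scale n) y (n := 1) (fun O =>
          |O 0 0 j - (lsys (dlA a β i0) n b.lbl none (ν M) (hν M)).expect (scale n) y (n := 1)
            fun O' => O' 0 0 j|) ≤ τ) ∧
        ∀ (m : ℕ) (l : Fin m) (Φ : OArr Unit m → ℝ) (B : ℝ), Continuous Φ → (∀ O, |Φ O| ≤ B) →
          ∀ e : Mon Unit P,
            |(m : ℝ) * (lsys (dlA a β i0) n b.lbl none (ν M) (hν M)).expect (scale n) y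
                (fun O : OArr Unit (m + 1) => Φ (osub O Fin.castSucc) *
                  monom (fun j => (e.1 j : ℕ)) (O l.castSucc (Fin.last m))) -
              ((lsys (dlA a β i0) n b.lbl none (ν M) (hν M)).expect (scale n) y Φ *
                  (lsys (dlA a β i0) n b.lbl none (ν M) (hν M)).expect (scale n) y
                    (fun O : OArr Unit 2 => monom (fun j => (e.1 j : ℕ)) (O 0 1)) +
                ∑ l' ∈ Finset.univ.erase l, (lsys (dlA a β i0) n b.lbl none (ν M) (hν M)).expect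
                  (scale n) y fun O : OArr Unit m => Φ O * monom (fun j => (e.1 j : ℕ)) (O l l'))| ≤
              B * τ := by
  set x := ℓ - η - β * a.lam i0 / 2 with hx
  have hS : 0 ≤ span a β i0 := (dlA_mem a hβ hmin none).1.trans (dlA_mem a hβ hmin none).2
  obtain ⟨km, -, hkm⟩ := Finset.exists_min_image Finset.univ a.wt ⟨i0, Finset.mem_univ i0⟩
  set wm := a.wt km
  have hwm : 0 < wm := a.pos km
  have hw : ∀ k, wm ≤ a.wt k := fun k => hkm k (Finset.mem_univ k)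
  have hw1 : a.wt i0 ≤ 1 := a.total ▸
    Finset.single_le_sum (fun j _ => (a.pos j).le) (Finset.mem_univ i0)
  set ε := min (1 / 2) (η / (64 * (|x| + 1))) with hεdef
  have hε : 0 < ε := lt_min (by norm_num) (by positivity)
  have hεh : ε ≤ 1 / 2 := min_le_left _ _
  have hεx : ε * |x| ≤ η / 64 := by
    have := min_le_right (1 / 2) (η / (64 * (|x| + 1)))
    rw [← hεdef, le_div_iff₀ (by positivity)] at this
    nlinarith [hε.le]
  set CB := 4 * K * span a β i0 / (wm * ε) with hCB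
  have hCB0 : 0 ≤ CB := by positivity
  set κ := wm * ε / 8 with hκdef
  have hκ : 0 < κ := by positivity
  refine ⟨κ, hκ, fun P τ δ hτ hδ => ?_⟩
  obtain ⟨C, hC0, hC⟩ := abs_pres_le (a := a) (i0 := i0) (ν := ν) hβ hmin hν P
  obtain ⟨Cg, hCg0, hCg⟩ := exists_err (a := a) (i0 := i0) (ν := ν) hβ hmin hν P
  set δ' := min (min (δ / 2) (wm / 4)) (η / (64 * (K * CB + 1))) with hδ'def
  have hδ'0 : 0 < δ' := lt_min (lt_min (by positivity) (by positivity)) (by positivity)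
  have hδ'δ : δ' ≤ δ / 2 := (min_le_left _ _).trans (min_le_left _ _)
  have hδ'w : δ' ≤ wm / 4 := (min_le_left _ _).trans (min_le_right _ _)
  have hδ'1 : δ' ≤ 1 := by linarith only [hδ'w, hw i0, hw1]
  have hδ'C : K * δ' * CB ≤ η / 64 := by
    have := min_le_right (min (δ / 2) (wm / 4)) (η / (64 * (K * CB + 1)))
    rw [← hδ'def, le_div_iff₀ (by positivity)] at this
    nlinarith [hδ'0.le]
  set lam := (CB + |x| + η + 1) / τ with hlam
  have hlam0 : 0 < lam := by positivity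
  set E := fun n : ℕ => Cg * (2 + 1 / Real.sqrt κ) / root8 n with hE
  set Bd := span a β i0 / 2 + 2 * C with hBd
  set G := (K + 1) * (Bd + |x| + η + 1) * (2 * K) with hG
  have hexp : ∀ᶠ n : ℕ in atTop, G * ((n : ℝ) * Real.exp (-(δ' ^ 2 * ε / 4 * n))) ≤ η / 64 :=
    exp_small G (by positivity) (by positivity)
  filter_upwards [free_top a hβ hmin hb hν (show 0 < η / 64 by positivity), hCg κ hκ, hexp,
    tendsto_natCast_atTop_atTop.eventually_ge_atTop (32 / (wm * ε) + 16 / (δ * ε) + 1),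
    tendsto_root8.eventually_ge_atTop
      (1 + C * (64 / (κ * η) + 128 / η) + 16 * lam * (Cg * (2 + 1 / Real.sqrt κ)) / η)]
    with n htop herrn hexpn hn hr hlow
  by_contra hne
  set r := root8 n with hrdef
  set s := scale n with hs
  have hs0 : 0 ≤ s := scale_nonneg n
  have p1 : 0 ≤ 32 / (wm * ε) := by positivity
  have p2 : 0 ≤ 16 / (δ * ε) := by positivity
  have hn1 : 32 ≤ wm * ε * n :=
    ((div_le_iff₀' (by positivity)).1 (by linarith only [hn, p1, p2] : 32 / (wm * ε) ≤ (n : ℝ)))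
  have hn2 : 16 ≤ δ * ε * n :=
    ((div_le_iff₀' (by positivity)).1 (by linarith only [hn, p1, p2] : 16 / (δ * ε) ≤ (n : ℝ)))
  have hnp : (1 : ℝ) ≤ n := by linarith only [hn, p1, p2]
  set C₁ := C * s ^ 2 with hC₁
  obtain ⟨hr1, hC₁a, hC₁b, hlamE⟩ :=
    scale_small (g := Cg * (2 + 1 / Real.sqrt κ)) hC0 hκ hη hlam0.le (by positivity) hr
  obtain ⟨hM₀n, hM₀1, hκd, hd0, hIco, hDco⟩ :=
    grid_facts (n := n) hε hεh hwm (hw i0) hw1 hn1
  set M₀ := ⌊ε * n⌋₊ with hM₀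
  set d := ⌊a.wt i0 * ε * n / 4⌋₊ with hd
  have hgood : ∀ M ∈ Finset.Ico M₀ n, ∀ D ∈ Finset.Ico d (2 * d), ∀ ω : Fin (M + 1) → Fin K,
      Good a δ' (M + 1) (cnt ω) → (D : ℝ) ≤ 3 / 4 * a.wt i0 * M ∧
      ∃ b : Base (some i0 : Option (Fin K)) none M, csize b.lbl none = D ∧
        (∀ l, l ≠ i0 → |(csize b.lbl (some l) : ℝ) / M - a.wt l| ≤ δ) ∧
        ∀ y : CIdx Unit P → ℝ, y ∈ PBox s →
          bgain a β ν i0 n s y b ≤ incr1 a β ν i0 n s y M D (cnt ω) ∧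
          -CB ≤ incr1 a β ν i0 n s y M D (cnt ω) ∧
          ∀ k, |pres a β ν i0 n M s y (lift i0 (decr1 (cnt ω) k) D) -
            pres a β ν i0 n M s y (lift i0 (decr1 (cnt ω) i0) D)| ≤ CB := fun M hM D hD ω hω =>
    good_step hβ hmin hν P hs0 (hIco M hM).1 hω hw hε hwm hδ'w hδ'δ (hIco M hM).2.1 (hDco D hD).1
      (hDco D hD).2.1 hn1 hn2
  have hbox : ∀ y : CIdx Unit P → ℝ, (∀ i, s / 2 ≤ y i ∧ y i ≤ 3 * s / 2) → y ∈ PBox s :=
    fun y hy i => ⟨by linarith only [hs0, (hy i).1], by linarith only [hs0, (hy i).2]⟩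
  have key : ∀ (M D : ℕ) (ω : Fin (M + 1) → Fin K), ∃ err : (CIdx Unit P → ℝ) → ℝ,
      (∀ y, 0 ≤ err y) ∧ Integrable err (cubeLaw s) ∧ ∫ y, err y ∂cubeLaw s ≤ E n ∧
      (M ∈ Finset.Ico M₀ n → D ∈ Finset.Ico d (2 * d) → Good a δ' (M + 1) (cnt ω) →
        ∀ y, (∀ i, s / 2 ≤ y i ∧ y i ≤ 3 * s / 2) →
          x + η / 2 ≤ incr1 a β ν i0 n s y M D (cnt ω) + lam * err y) := by
    intro M D ω
    by_cases hc : M ∈ Finset.Ico M₀ n ∧ D ∈ Finset.Ico d (2 * d) ∧ Good a δ' (M + 1) (cnt ω)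
    · obtain ⟨hM, hD, hω⟩ := hc
      obtain ⟨hD3, b, hbD, hbδ, hby⟩ := hgood M hM D hD ω hω
      obtain ⟨m1, -, m3, m4⟩ := hIco M hM
      obtain ⟨err, h0, hi, hint, herr⟩ := herrn M m3 (Nat.le_of_succ_le m1) m4 b.lbl
      refine ⟨err, h0, hi, hint, fun _ _ _ y hy => ?_⟩
      obtain ⟨g1, g2, -⟩ := hby y (hbox y hy)
      rcases le_or_gt (err y) τ with h | h
      · refine le_trans (le_of_lt ?_) (le_add_of_nonneg_right (mul_nonneg hlam0.le (h0 y)))
        refine lt_of_lt_of_le ?_ g1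
        by_contra hc'
        refine hne ⟨M, D, b, y, m1, m3, hbox y hy, hbD, (hDco D hD).2.2, hD3, hbδ,
          by linarith only [not_lt.1 hc', hx], fun j => ((herr y hy).1 j).trans h,
          fun m l Φ B hΦ hB e => ((herr y hy).2 m l Φ B hΦ hB e).trans
            (mul_le_mul_of_nonneg_left h ((abs_nonneg _).trans (hB fun _ _ _ => 0)))⟩
      · have h1 : lam * τ = CB + |x| + η + 1 := by rw [hlam]; field_simp
        have h2 := mul_le_mul_of_nonneg_left h.le hlam0.le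
        linarith only [h1, h2, g2, le_abs_self x, hη]
    · refine ⟨0, fun _ => le_rfl, integrable_zero _ _ _, ?_, fun h1 h2 h3 => absurd ⟨h1, h2, h3⟩ hc⟩
      simp only [hE, Pi.zero_apply, integral_zero]
      have := root8_nonneg n
      positivity
  choose err h0 hi hint hlb using key
  set Λ := fun y => ∑ M ∈ Finset.Ico M₀ n, ∑ D ∈ Finset.Ico d (2 * d),
    iid a (M + 1) fun ω => err M D ω y with hΛ
  set N := ((n : ℝ) - M₀) * d with hN
  have hN0 : 0 < N := mul_pos (sub_pos.2 (by exact_mod_cast hM₀n)) hd0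
  have hcard : ∀ g : ℝ, ∑ _M ∈ Finset.Ico M₀ n, ∑ _D ∈ Finset.Ico d (2 * d), g = N * g := fun g => by
    simp only [Finset.sum_const, Nat.card_Ico, nsmul_eq_mul, show 2 * d - d = d by omega,
      Nat.cast_sub hM₀n.le, hN]
    ring
  have hΛint : Integrable Λ (cubeLaw s) ∧ ∫ y, Λ y ∂cubeLaw s ≤ N * E n := by
    have hi' : ∀ M D, Integrable (fun y => iid a (M + 1) fun ω => err M D ω y) (cubeLaw s) :=
      fun M D => integrable_finsetSum _ fun ω _ => (hi M D ω).const_mul _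
    have hsum : ∀ M, Integrable (fun y => ∑ D ∈ Finset.Ico d (2 * d),
        iid a (M + 1) fun ω => err M D ω y) (cubeLaw s) :=
      fun M => integrable_finsetSum _ fun D _ => hi' M D
    refine ⟨integrable_finsetSum _ fun M _ => hsum M, ?_⟩
    rw [hΛ, integral_finsetSum _ fun M _ => hsum M, ← hcard]
    refine Finset.sum_le_sum fun M _ => ?_
    rw [integral_finsetSum _ fun D _ => hi' M D]
    refine Finset.sum_le_sum fun D _ => ?_
    simp only [iid]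
    rw [integral_finsetSum _ fun ω _ => (hi M D ω).const_mul _]
    simp only [integral_const_mul]
    exact (iid_mono fun ω => hint M D ω).trans_eq (iid_const a _)
  have hexp' : ∀ g : ℝ, g ≤ (K + 1) * (Bd + |x| + η + 1) →
      g * n * (2 * (K : ℝ) * Real.exp (-(δ' ^ 2 * ε / 4 * n))) ≤ η / 64 := fun g hg => by
    refine le_trans ?_ hexpn
    calc g * n * (2 * (K : ℝ) * Real.exp (-(δ' ^ 2 * ε / 4 * n)))
        ≤ (K + 1) * (Bd + |x| + η + 1) * n * (2 * (K : ℝ) * Real.exp (-(δ' ^ 2 * ε / 4 * n))) := by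
          gcongr
      _ = _ := by rw [hG]; ring
  have hBd0 : 0 ≤ Bd := by rw [hBd]; linarith only [hS, hC0]
  obtain ⟨e1, e2⟩ := small_bad (K := K) hnp hBd0 (abs_nonneg x) hη.le (by positivity) hexp'
  have hX := top_arith (x := x) hM₀1 hεx hεh hη.le hC₁a
  have hpt : ∀ y, (∀ i, s / 2 ≤ y i ∧ y i ≤ 3 * s / 2) → N * (η / 4) ≤ lam * Λ y := by
    intro y hy
    have hyB := hbox y hy
    exact avg_defect hβ.le hν hM₀n.le hδ'0.le hδ'1 hCB0 (mul_nonneg hBd0 (Nat.cast_nonneg n))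
      hlam0.le hη.le (y := y) (T := n * (x + η / 64) + C₁)
      (fun M c => (hC n M s y c hs0 hyB).2.2) (fun M c => (hC n M s y c hs0 hyB).1)
      (fun D => top_le (htop P D s) (by linarith only [hlow, hx]) fun c => (hC n n s y c hs0 hyB).2.2)
      (fun M hM => bad_prob (hIco M hM).2.1)
      (fun M hM D hD ω hω => by
        obtain ⟨-, b, -, -, hby⟩ := hgood M hM D hD ω hω
        exact (hby y hyB).2.2)
      (fun M hM D c => crude_n (hIco M hM).1 hS hC0 hBd (n_scale hr1) (fun M' c' =>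
        ⟨(hC n M' s y c' hs0 hyB).1, (hC n M' s y c' hs0 hyB).2.1⟩) c)
      (fun M D ω => h0 M D ω y) (fun M hM D hD ω hω => hlb M D ω hM hD hω y hy)
      (by linarith only [e1, hδ'C, hη]) e2 hX (hC₁b.trans (mul_le_mul_of_nonneg_right hκd (by positivity)))
  obtain ⟨hprob, hae⟩ := cube_inner (P := P) hs0
  have hfinal := integral_mono_ae (integrable_const (N * (η / 4))) (hΛint.1.const_mul lam)
    (hae.mono hpt)
  rw [integral_const, probReal_univ, one_smul, integral_const_mul] at hfinal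
  nlinarith only [hfinal, hN0, hη, mul_le_mul_of_nonneg_left hΛint.2 hlam0.le,
    mul_le_mul_of_nonneg_left hlamE hN0.le]

end Vale.Agent.P166F.Low.Sel
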