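import Vale.Agent.P166.Finite
import Vale.Agent.P166F.Model
import Vale.Agent.P166F.GG.Basic
import Vale.Agent.P166F.Low.Regime
import Vale.Agent.P166F.Low.Decomp
import Vale.Agent.P166F.Low.Rot
import Vale.Agent.P166F.Low.Select.Counts
import Vale.Agent.P166F.Low.Select.Labels

/-!
P166: mean log-sums as functions of the class sizes: one row moved, free bounds, and the comparison
of two labellings.
-/

namespace Vale.Agent.P166F.Low.Sel

open MeasureTheory ProbabilityTheory
open scoped RealInnerProductSpace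
open Vale.Agent.P166 (spin pressure RowInvariantLaw meanWeight)
open Vale.Agent.P166N.Spectrum (OrthInvLaw)

variable {K M n P : ℕ}

section General

variable {κ : Type} [DecidableEq κ] {dl : κ → ℝ} {lbl : Fin M → κ} {f : κ} {s : ℝ}
  {y : CIdx Unit P → ℝ} {ν : Measure (Fin M → Fin M → ℝ)}

lemma integrable_log (hν : OrthInvLaw M ν) :
    Integrable (fun z : (Fin M → Fin M → ℝ) × EuclideanSpace ℝ (GIdx Unit P M) =>
      Real.log (∑ σ, Real.exp (pertH dl n lbl f s y z.1 z.2 σ)))
      (ν.prod (stdGaussian (EuclideanSpace ℝ (GIdx Unit P M)))) := by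
  refine (GG.integrable_logZ (S := lsys dl n lbl f ν hν) (P := P) s y).congr ?_
  exact lsys_logZ_ae dl n lbl f s y hν

lemma pertH_zero (U : Fin M → Fin M → ℝ) (g : EuclideanSpace ℝ (GIdx Unit P M)) (σ : Fin M → Bool) :
    pertH dl n lbl f s (0 : CIdx Unit P → ℝ) U g σ = clsEnergy dl lbl U σ := by
  have h0 : pvec (0 : CIdx Unit P → ℝ) (featV n lbl f U σ) = 0 := by
    ext x
    simp [pvec]
  simp [pertH, h0]

/-- The free log-sum lies between `M log 2` and `M (log 2 + Λ / 2)`. -/
lemma free_bounds (hν : OrthInvLaw M ν) {Λ : ℝ} (h : ∀ j, 0 ≤ dl j ∧ dl j ≤ Λ) :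
    (M : ℝ) * Real.log 2 ≤ pmass dl n lbl f s (0 : CIdx Unit P → ℝ) ν ∧
      pmass dl n lbl f s (0 : CIdx Unit P → ℝ) ν ≤ (M : ℝ) * Real.log 2 + Λ * M / 2 := by
  have := hν.prob
  have hb : ∀ U : Fin M → Fin M → ℝ, (Matrix.of U).transpose * Matrix.of U = 1 →
      (M : ℝ) * Real.log 2 ≤ Real.log (∑ σ, Real.exp (clsEnergy dl lbl U σ)) ∧
      Real.log (∑ σ, Real.exp (clsEnergy dl lbl U σ)) ≤ (M : ℝ) * Real.log 2 + Λ * M / 2 := by
    intro U hU
    have he : ∀ σ, 0 ≤ clsEnergy dl lbl U σ ∧ clsEnergy dl lbl U σ ≤ Λ * M / 2 := fun σ => by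
      refine ⟨div_nonneg (Finset.sum_nonneg fun i _ => mul_nonneg (h _).1 (sq_nonneg _)) zero_le_two,
        div_le_div_of_nonneg_right ((Finset.sum_le_sum fun i _ =>
          mul_le_mul_of_nonneg_right (h _).2 (sq_nonneg _)).trans_eq ?_) zero_le_two⟩
      rw [← Finset.mul_sum, sum_sq_coord hU]
    have hc : ∀ b : ℝ, Real.log (∑ _σ : Fin M → Bool, Real.exp b) = (M : ℝ) * Real.log 2 + b :=
      fun b => by
        rw [Finset.sum_const, nsmul_eq_mul, Real.log_mul (by positivity) (Real.exp_pos b).ne',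
          Real.log_exp]
        simp
    constructor
    · refine le_of_eq_of_le ((add_zero _).symm.trans (hc 0).symm) (Real.log_le_log
        (Finset.sum_pos (fun _ _ => Real.exp_pos _) Finset.univ_nonempty)
        (Finset.sum_le_sum fun σ _ => Real.exp_le_exp.2 (he σ).1))
    · exact (Real.log_le_log (Finset.sum_pos (fun _ _ => Real.exp_pos _) Finset.univ_nonempty)
        (Finset.sum_le_sum fun σ _ => Real.exp_le_exp.2 (he σ).2)).trans_eq (hc _)
  have hi := integrable_log (n := n) (dl := dl) (lbl := lbl) (f := f) (s := s)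
    (y := (0 : CIdx Unit P → ℝ)) hν
  simp only [pertH_zero] at hi
  simp only [pmass, pmean, pertH_zero]
  constructor
  · refine le_of_eq_of_le (by simp) (integral_mono_ae (integrable_const ((M : ℝ) * Real.log 2)) hi
      ((ae_orth_prod hν).mono fun z hz => (hb _ hz).1))
  · exact (integral_mono_ae hi (integrable_const ((M : ℝ) * Real.log 2 + Λ * M / 2))
      ((ae_orth_prod hν).mono fun z hz => (hb _ hz).2)).trans_eq (by simp)

/-- The loss of a log-sum when a nonnegative term leaves the exponents. -/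
lemma log_sum_drop {X : Type} [Fintype X] [Nonempty X] (H Q : X → ℝ) :
    Real.log (∑ x, Real.exp (H x)) - Real.log (∑ x, Real.exp (H x - Q x)) ≤
      ∑ x, Real.exp (H x) / (∑ z, Real.exp (H z)) * Q x := by
  set Z := ∑ z, Real.exp (H z)
  have hZ : 0 < Z := Finset.sum_pos (fun _ _ => Real.exp_pos _) Finset.univ_nonempty
  set m := ∑ x, Real.exp (H x) / Z * Q x
  have h1 : Z * Real.exp (-m) ≤ ∑ x, Real.exp (H x - Q x) := by
    have h : ∀ x, Real.exp (H x) * Real.exp (-m) * (1 + (m - Q x)) ≤ Real.exp (H x - Q x) := fun x => by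
      rw [show H x - Q x = H x + -m + (m - Q x) by ring, Real.exp_add, Real.exp_add]
      refine mul_le_mul_of_nonneg_left ?_ (by positivity)
      linarith [Real.add_one_le_exp (m - Q x)]
    refine le_of_eq_of_le ?_ (Finset.sum_le_sum fun x _ => h x)
    have hm : ∑ x, Real.exp (H x) * Q x = m * Z := by
      simp only [m, Finset.sum_mul]
      exact Finset.sum_congr rfl fun x _ => by field_simp
    calc Z * Real.exp (-m) = Real.exp (-m) * (Z * (1 + m) - ∑ x, Real.exp (H x) * Q x) := by
          rw [hm]; ring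
      _ = _ := by
          simp only [Z, Finset.sum_mul, ← Finset.sum_sub_distrib, Finset.mul_sum]
          exact Finset.sum_congr rfl fun x _ => by ring
  have h2 := Real.log_le_log (by positivity) h1
  rw [Real.log_mul hZ.ne' (Real.exp_pos _).ne', Real.log_exp] at h2
  linarith

/-- Rows of one class moved one at a time to a class without slope: the mean loss. -/
lemma move_row_bound (hν : OrthInvLaw M ν) {e l : κ} (he : dl e = 0) (hl : 0 ≤ dl l) (hlf : l ≠ f)
    (hef : e ≠ f) :
    (∀ i, lbl i = l →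
      pmass dl n (Function.update lbl i e) f s y ν ≤ pmass dl n lbl f s y ν) ∧
      (csize lbl l : ℝ) * pmass dl n lbl f s y ν -
          ∑ i ∈ Finset.univ.filter (fun i => lbl i = l), pmass dl n (Function.update lbl i e) f s y ν ≤
        dl l * M / 2 := by
  have := hν.prob
  set S := Finset.univ.filter fun i => lbl i = l
  have hH : ∀ i, lbl i = l → ∀ U g σ, pertH dl n (Function.update lbl i e) f s y U g σ =
      pertH dl n lbl f s y U g σ - dl l * coord U σ i ^ 2 / 2 := by
    intro i hi U g σ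
    have hfe : featV n (Function.update lbl i e) f U σ = featV n lbl f U σ := by
      unfold featV
      congr 1
      funext j
      by_cases hj : j = i
      · subst hj
        simp [hef, hi, hlf]
      · rw [Function.update_of_ne hj]
    have hce : clsEnergy dl (Function.update lbl i e) U σ =
        clsEnergy dl lbl U σ - dl l * coord U σ i ^ 2 / 2 := by
      simp only [clsEnergy, ← sub_div]
      congr 1
      rw [eq_sub_iff_add_eq, ← Finset.add_sum_erase _ _ (Finset.mem_univ i),
        ← Finset.add_sum_erase _ _ (Finset.mem_univ i), Function.update_self, he, zero_mul, zero_add,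
        hi, add_comm]
      refine congrArg₂ (· + ·) rfl (Finset.sum_congr rfl fun j hj => ?_)
      rw [Function.update_of_ne (Finset.ne_of_mem_erase hj)]
    simp only [pertH, hfe, hce]
    ring
  have hi : ∀ L : Fin M → κ, Integrable (fun z : (Fin M → Fin M → ℝ) × EuclideanSpace ℝ (GIdx Unit P M) =>
      Real.log (∑ σ, Real.exp (pertH dl n L f s y z.1 z.2 σ)))
      (ν.prod (stdGaussian (EuclideanSpace ℝ (GIdx Unit P M)))) := fun L => integrable_log hν
  refine ⟨fun i hil => integral_mono (hi _) (hi _) fun z => Real.log_le_log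
    (Finset.sum_pos (fun _ _ => Real.exp_pos _) Finset.univ_nonempty) (Finset.sum_le_sum fun σ _ =>
      Real.exp_le_exp.2 ?_), ?_⟩
  · rw [hH i hil]
    exact sub_le_self _ (div_nonneg (mul_nonneg hl (sq_nonneg _)) zero_le_two)
  · simp only [pmass, pmean]
    rw [← integral_finsetSum _ fun i _ => hi _, ← integral_const_mul, ← integral_sub
      ((hi lbl).const_mul _) (integrable_finsetSum _ fun i _ => hi _)]
    refine (integral_mono_ae (((hi lbl).const_mul _).sub (integrable_finsetSum _ fun i _ => hi _))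
      (integrable_const (dl l * M / 2)) ((ae_orth_prod hν).mono fun z hz => ?_)).trans_eq (by simp)
    simp only [Pi.sub_apply]
    rw [show (csize lbl l : ℝ) * Real.log (∑ σ, Real.exp (pertH dl n lbl f s y z.1 z.2 σ)) =
      ∑ _i ∈ S, Real.log (∑ σ, Real.exp (pertH dl n lbl f s y z.1 z.2 σ)) by
        rw [Finset.sum_const, nsmul_eq_mul]; rfl, ← Finset.sum_sub_distrib]
    refine (Finset.sum_le_sum fun i hiS => ?_).trans
      (?_ : ∑ i ∈ S, ∑ σ, Real.exp (pertH dl n lbl f s y z.1 z.2 σ) /
        (∑ τ, Real.exp (pertH dl n lbl f s y z.1 z.2 τ)) * (dl l * coord z.1 σ i ^ 2 / 2) ≤ _)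
    · simp only [hH i (Finset.mem_filter.1 hiS).2]
      exact log_sum_drop _ _
    · rw [Finset.sum_comm]
      simp only [← Finset.mul_sum]
      refine (Finset.sum_le_sum (g := fun σ => Real.exp (pertH dl n lbl f s y z.1 z.2 σ) /
        (∑ τ, Real.exp (pertH dl n lbl f s y z.1 z.2 τ)) * (dl l * M / 2)) fun σ _ =>
          mul_le_mul_of_nonneg_left ?_ (by positivity)).trans_eq ?_
      · rw [← Finset.sum_div, ← Finset.mul_sum]
        refine div_le_div_of_nonneg_right (mul_le_mul_of_nonneg_left ?_ hl) zero_le_two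
        exact (Finset.sum_le_sum_of_subset_of_nonneg (Finset.subset_univ S)
          fun j _ _ => sq_nonneg _).trans_eq (sum_sq_coord hz σ)
      · rw [← Finset.sum_mul, ← Finset.sum_div, div_self
          (Finset.sum_pos (fun _ _ => Real.exp_pos _) Finset.univ_nonempty).ne', one_mul]

variable [Fintype κ]

/-- Class sizes with the same feature class, more rows of slope: at most `m Λ M / (2 A)` more. -/
lemma chain_bound (hν : OrthInvLaw M ν) {e : κ} (he : dl e = 0) (hef : e ≠ f) {Λ A : ℝ}
    (h : ∀ j, 0 ≤ dl j ∧ dl j ≤ Λ) (hA : 0 < A) :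
    ∀ (m : ℕ) (c c' : κ → ℕ), ∑ j, c j = M → ∑ j, c' j = M → c' f = c f →
      (∀ j, j ≠ e → c j ≤ c' j) → c e = c' e + m → (∀ j, j ≠ e → A ≤ (c j : ℝ) + 1) →
      pmass dl n (mkLbl f c M) f s y ν ≤ pmass dl n (mkLbl f c' M) f s y ν ∧
        pmass dl n (mkLbl f c' M) f s y ν ≤
          pmass dl n (mkLbl f c M) f s y ν + m * (Λ * M / (2 * A)) := by
  intro m
  induction m with
  | zero =>
    intro c c' hc hc' hf hle he' hA'
    have hall : ∀ j, c j ≤ c' j := fun j => by
      by_cases hj : j = e
      · subst hj; omega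
      · exact hle j hj
    have heq : c = c' := funext fun j =>
      (Finset.sum_eq_sum_iff_of_le fun i _ => hall i).1 (hc.trans hc'.symm) j (Finset.mem_univ j)
    subst heq
    simp
  | succ m ih =>
    intro c c' hc hc' hf hle he' hA'
    obtain ⟨l, hl, hlt⟩ : ∃ l, l ≠ e ∧ c l < c' l := by
      by_contra hno
      push Not at hno
      have h1 : ∑ j ∈ Finset.univ.erase e, c' j ≤ ∑ j ∈ Finset.univ.erase e, c j :=
        Finset.sum_le_sum fun j hj => hno j (Finset.ne_of_mem_erase hj)
      have h2 := Finset.add_sum_erase Finset.univ c (Finset.mem_univ e)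
      have h3 := Finset.add_sum_erase Finset.univ c' (Finset.mem_univ e)
      omega
    have hlf : l ≠ f := fun h => by subst h; omega
    set L := mkLbl f c' M
    have hL : ∀ j, csize L j = c' j := csize_mkLbl f hc'
    set c'' : κ → ℕ := fun j => if j = e then c' e + 1 else if j = l then c' l - 1 else c' j
    have hcs : ∀ i, L i = l → ∀ j, csize (Function.update L i e) j = c'' j := by
      intro i hi j
      have hu := Finset.card_filter (fun x => Function.update L i e x = j) Finset.univ
      have hv := Finset.card_filter (fun x => L x = j) Finset.univ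
      rw [← Finset.add_sum_erase _ _ (Finset.mem_univ i)] at hu hv
      rw [Finset.sum_congr rfl fun x hx => (by rw [Function.update_of_ne (Finset.ne_of_mem_erase hx)] :
        (if Function.update L i e x = j then 1 else 0) = if L x = j then 1 else 0),
        Function.update_self] at hu
      rw [hi] at hv
      have hj := hL j
      simp only [csize] at hj ⊢
      simp only [c'']
      by_cases h1 : j = e
      · subst h1
        rw [if_pos rfl] at hu ⊢
        rw [if_neg hl] at hv
        omega
      · rw [if_neg (Ne.symm h1)] at hu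
        rw [if_neg h1]
        by_cases h2 : j = l
        · subst h2
          rw [if_pos rfl] at hv ⊢
          omega
        · rw [if_neg (Ne.symm h2)] at hv
          rw [if_neg h2]
          omega
    obtain ⟨i₀, hi₀⟩ : (Finset.univ.filter fun i => L i = l).Nonempty := by
      rw [← Finset.card_pos]
      have := hL l
      simp only [csize] at this
      omega
    have hc'' : ∑ j, c'' j = M :=
      (Finset.sum_congr rfl fun j _ => (hcs i₀ (Finset.mem_filter.1 hi₀).2 j).symm).trans (sum_csize _)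
    have hp : ∀ i, L i = l → pmass dl n (Function.update L i e) f s y ν =
        pmass dl n (mkLbl f c'' M) f s y ν := fun i hi =>
      pmass_sizes hν fun j => (hcs i hi j).trans (csize_mkLbl f hc'' j).symm
    obtain ⟨hm1, hm2⟩ := move_row_bound (n := n) (lbl := L) (s := s) (y := y) hν he (h l).1 hlf hef
    have g1 := hm1 i₀ (Finset.mem_filter.1 hi₀).2
    rw [hp i₀ (Finset.mem_filter.1 hi₀).2] at g1
    rw [Finset.sum_congr rfl fun i hi => hp i (Finset.mem_filter.1 hi).2, Finset.sum_const,
      nsmul_eq_mul, show ((Finset.univ.filter fun i => L i = l).card : ℝ) = (c' l : ℝ) by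
        exact_mod_cast hL l, show (csize L l : ℝ) = (c' l : ℝ) by rw [hL l], ← mul_sub] at hm2
    have hcl : A ≤ (c' l : ℝ) := (hA' l hl).trans (by exact_mod_cast hlt)
    have hcl0 : 0 < (c' l : ℝ) := hA.trans_le hcl
    have g2 : pmass dl n L f s y ν - pmass dl n (mkLbl f c'' M) f s y ν ≤ Λ * M / (2 * A) := by
      have h5 : A * (pmass dl n L f s y ν - pmass dl n (mkLbl f c'' M) f s y ν) ≤ Λ * M / 2 :=
        (mul_le_mul_of_nonneg_right hcl (sub_nonneg.2 g1)).trans (hm2.trans
          (div_le_div_of_nonneg_right (mul_le_mul_of_nonneg_right (h l).2 (Nat.cast_nonneg M)) zero_le_two))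
      rw [le_div_iff₀ (by positivity)]
      linarith
    obtain ⟨g3, g4⟩ := ih c c'' hc hc'' (by simp [c'', Ne.symm hef, Ne.symm hlf, hf])
      (fun j hj => by
        simp only [c'', if_neg hj]
        split_ifs with h2
        · subst h2; omega
        · exact hle j hj)
      (by simp only [c'', if_true]; omega) hA'
    refine ⟨g3.trans g1, ?_⟩
    push_cast
    linarith

end General

/-! ### Sizes from counts -/

/-- Sizes with `D` rows of class `i0` marked. -/
def lift (i0 : Fin K) (c : Fin K → ℕ) (D : ℕ) : Option (Fin K) → ℕ :=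
  fun j => j.elim (min D (c i0)) fun i => if i = i0 then c i0 - min D (c i0) else c i

lemma sum_lift (i0 : Fin K) (c : Fin K → ℕ) (D : ℕ) : ∑ j, lift i0 c D j = ∑ k, c k := by
  rw [Fintype.sum_option, ← Finset.add_sum_erase _ _ (Finset.mem_univ i0),
    ← Finset.add_sum_erase _ c (Finset.mem_univ i0), ← add_assoc,
    Finset.sum_congr rfl fun i hi => (by simp [lift, Finset.ne_of_mem_erase hi] :
      lift i0 c D (some i) = c i)]
  simp only [lift, Option.elim_none, Option.elim_some, if_true]
  have : (Finset.univ.erase i0).sum c = ∑ x ∈ Finset.univ.erase i0, c x := rfl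
  omega

/-- The mean log-sum at given sizes. -/
noncomputable def pres (a : Atoms K) (β : ℝ) (ν : (N : ℕ) → Measure (Fin N → Fin N → ℝ))
    (i0 : Fin K) (n M : ℕ) (s : ℝ) (y : CIdx Unit P → ℝ) (c : Option (Fin K) → ℕ) : ℝ :=
  pmass (dlA a β i0) n (mkLbl none c M) none s y (ν M)

lemma pres_eq {a : Atoms K} {β : ℝ} {ν : (N : ℕ) → Measure (Fin N → Fin N → ℝ)}
    (hν : ∀ N, OrthInvLaw N (ν N)) {i0 : Fin K} {s : ℝ} {y : CIdx Unit P → ℝ}
    {c : Option (Fin K) → ℕ} {lbl : Fin M → Option (Fin K)} (h : ∀ j, csize lbl j = c j) :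
    pmass (dlA a β i0) n lbl none s y (ν M) = pres a β ν i0 n M s y c := by
  have hs : ∑ j, c j = M := (Finset.sum_congr rfl fun j _ => (h j).symm).trans (sum_csize lbl)
  exact pmass_sizes (hν M) fun j => (h j).trans (csize_mkLbl none hs j).symm

lemma dlA_mem (a : Atoms K) {β : ℝ} (hβ : 0 < β) {i0 : Fin K} (hmin : ∀ i, a.lam i0 ≤ a.lam i)
    (j : Option (Fin K)) :
    0 ≤ dlA a β i0 j ∧ dlA a β i0 j ≤ β * ∑ i, (a.lam i - a.lam i0) := by
  have h : ∀ i, 0 ≤ a.lam i - a.lam i0 := fun i => sub_nonneg.2 (hmin i)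
  cases j with
  | none => exact ⟨le_rfl, mul_nonneg hβ.le (Finset.sum_nonneg fun i _ => h i)⟩
  | some i => exact ⟨mul_nonneg hβ.le (h i), mul_le_mul_of_nonneg_left
      (Finset.single_le_sum (fun k _ => h k) (Finset.mem_univ i)) hβ.le⟩

/-! ### Two labellings -/

variable {a : Atoms K}

lemma mean_perm {ν : Measure (Fin M → Fin M → ℝ)} (hν : RowInvariantLaw M ν) (β : ℝ)
    {ω ω' : Fin M → Fin K} (h : ∀ k, cnt ω k = cnt ω' k) :
    ∫ U, pressure M β (fun i => a.lam (ω i)) U ∂ν = ∫ U, pressure M β (fun i => a.lam (ω' i)) U ∂ν := by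
  have hcard : ∀ k, Fintype.card {i // ω' i = k} = Fintype.card {i // ω i = k} := fun k => by
    rw [Fintype.card_subtype, Fintype.card_subtype]
    exact (h k).symm
  set π : Equiv.Perm (Fin M) := Equiv.ofFiberEquiv fun k => Fintype.equivOfCardEq (hcard k)
  have hπ : (fun i => a.lam (ω' i)) = (fun i => a.lam (ω i)) ∘ π := funext fun i => by
    simp only [Function.comp_apply, π, Equiv.ofFiberEquiv_map]
  rw [hπ, ← Vale.Agent.P166.integral_rowPerm hν π
    (Vale.Agent.P166.continuous_pressure β ((fun i => a.lam (ω i)) ∘ π))]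
  simp only [Vale.Agent.P166.pressure_perm]

/-- A row carries at most the share of the top class. -/
lemma meanWeight_le_top {ν : Measure (Fin M → Fin M → ℝ)} (hν : RowInvariantLaw M ν) {β : ℝ}
    (hβ : 0 ≤ β) {top : Fin K} (htop : ∀ k, a.lam k ≤ a.lam top) (ω : Fin M → Fin K) {k : ℝ}
    (hk : 0 < k) (hcnt : k ≤ cnt ω top) (i : Fin M) :
    meanWeight β ν (fun j => a.lam (ω j)) i ≤ β / (2 * k) := by
  set l := fun j => a.lam (ω j)
  have hw0 := fun j => Vale.Agent.P166.meanWeight_nonneg (ν := ν) hβ l j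
  have h1 : (cnt ω top : ℝ) * meanWeight β ν l i ≤ β / 2 :=
    calc (cnt ω top : ℝ) * meanWeight β ν l i
        = ∑ _j ∈ Finset.univ.filter (fun j => ω j = top), meanWeight β ν l i := by simp [cnt]
      _ ≤ ∑ j ∈ Finset.univ.filter (fun j => ω j = top), meanWeight β ν l j :=
          Finset.sum_le_sum fun j hj => Vale.Agent.P166.meanWeight_mono hν hβ
            (Vale.Agent.P166.integrable_pressure hν hβ) l
            (by simp only [l, (Finset.mem_filter.1 hj).2]; exact htop _)
      _ ≤ ∑ j, meanWeight β ν l j :=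
          Finset.sum_le_sum_of_subset_of_nonneg (Finset.subset_univ _) fun j _ _ => hw0 j
      _ = β / 2 := Vale.Agent.P166.sum_meanWeight hν hβ i.pos l
  rw [le_div_iff₀ (by positivity)]
  nlinarith [mul_le_mul_of_nonneg_right hcnt (hw0 i)]

/-- Labellings with near counts have near mean pressures. -/
lemma mean_close {ν : Measure (Fin M → Fin M → ℝ)} (hν : RowInvariantLaw M ν) {β : ℝ}
    (hβ : 0 ≤ β) {top : Fin K} (htop : ∀ k, a.lam k ≤ a.lam top) (ω ω' : Fin M → Fin K) {k : ℝ}
    (hk : 0 < k) (h1 : k ≤ cnt ω top) (h2 : k ≤ cnt ω' top) {L : ℝ} (hL : ∀ j, |a.lam j| ≤ L) :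
    |∫ U, pressure M β (fun i => a.lam (ω i)) U ∂ν - ∫ U, pressure M β (fun i => a.lam (ω' i)) U ∂ν| ≤
      (∑ j, |(cnt ω j : ℝ) - cnt ω' j|) * (2 * L * (β / k)) := by
  classical
  have hsum : ∀ φ : Fin M → Fin K, ∑ j, cnt φ j = M := fun φ => sum_csize φ
  set m : Fin K → ℕ := fun j => min (cnt ω j) (cnt ω' j)
  set R := M - ∑ j, m j
  have hm : ∀ φ, (φ = ω ∨ φ = ω') → ∑ j, (cnt φ j - m j) = R := fun φ hφ => by
    have hle : ∀ j ∈ Finset.univ, m j ≤ cnt φ j := fun j _ => by
      rcases hφ with rfl | rfl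
      exacts [min_le_left _ _, min_le_right _ _]
    have h := Finset.sum_tsub_distrib Finset.univ hle
    rw [h, hsum φ]
  obtain ⟨r1, hr1⟩ := exists_lbl (hm ω (Or.inl rfl))
  obtain ⟨r2, hr2⟩ := exists_lbl (hm ω' (Or.inr rfl))
  have hle : ∑ j, m j ≤ M := (Finset.sum_le_sum fun j _ => min_le_left _ _).trans_eq (hsum ω)
  let E : ((Σ j, Fin (m j)) ⊕ Fin R) ≃ Fin M := Fintype.equivFinOfCardEq (by
    rw [Fintype.card_sum, Fintype.card_sigma]
    simp only [Fintype.card_fin]
    omega)
  set L1 : Fin M → Fin K := fun i => Sum.elim Sigma.fst r1 (E.symm i)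
  set L2 : Fin M → Fin K := fun i => Sum.elim Sigma.fst r2 (E.symm i)
  have hc : ∀ (φ : Fin M → Fin K) (r : Fin R → Fin K), (∀ j, csize r j = cnt φ j - m j) →
      (∀ j, m j ≤ cnt φ j) → ∀ j, cnt (fun i => Sum.elim Sigma.fst r (E.symm i)) j = cnt φ j := by
    intro φ r hr hmle j
    simp only [cnt, Finset.card_filter] at *
    rw [← E.sum_comp, Fintype.sum_sum_type, Fintype.sum_sigma]
    simp only [Equiv.symm_apply_apply, Sum.elim_inl, Sum.elim_inr]
    rw [Finset.sum_eq_single j (fun i _ hi => by simp [hi]) (fun h => absurd (Finset.mem_univ j) h)]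
    have h4 := hr j
    simp only [csize, Finset.card_filter] at h4
    rw [h4]
    have := hmle j
    simp only [Finset.sum_const, Finset.card_univ, Fintype.card_fin, smul_eq_mul, mul_one, if_true]
    omega
  have e1 := hc ω r1 hr1 fun j => min_le_left _ _
  have e2 := hc ω' r2 hr2 fun j => min_le_right _ _
  rw [mean_perm (a := a) hν β (fun j => (e1 j).symm), mean_perm (a := a) hν β (fun j => (e2 j).symm)]
  show |∫ U, pressure M β (fun i => a.lam (L1 i)) U ∂ν - ∫ U, pressure M β (fun i => a.lam (L2 i)) U ∂ν| ≤ _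
  set l1 := fun i => a.lam (L1 i)
  set l2 := fun i => a.lam (L2 i)
  have hi : ∀ l : Fin M → ℝ, Integrable (pressure M β l) ν := Vale.Agent.P166.integrable_pressure hν hβ
  have hw : ∀ i, Integrable (fun U => |l1 i - l2 i| *
      (Vale.Agent.P166.weight β l1 i U + Vale.Agent.P166.weight β l2 i U)) ν := fun i =>
    ((Vale.Agent.P166.integrable_weight hν hβ l1 i).add
      (Vale.Agent.P166.integrable_weight hν hβ l2 i)).const_mul _
  rw [← integral_sub (hi l1) (hi l2)]
  refine abs_integral_le_integral_abs.trans ((integral_mono ((hi l1).sub (hi l2)).abs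
    (integrable_finsetSum _ fun i _ => hw i) fun U =>
      Vale.Agent.P166.abs_pressure_sub_le hβ l1 l2 U).trans ?_)
  rw [integral_finsetSum _ fun i _ => hw i]
  have hb : ∀ i, ∫ U, |l1 i - l2 i| * (Vale.Agent.P166.weight β l1 i U +
      Vale.Agent.P166.weight β l2 i U) ∂ν ≤ if L1 i = L2 i then 0 else 2 * L * (β / k) := by
    intro i
    rw [integral_const_mul, integral_add (Vale.Agent.P166.integrable_weight hν hβ l1 i)
      (Vale.Agent.P166.integrable_weight hν hβ l2 i)]
    split_ifs with h
    · simp [l1, l2, h]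
    · have g1 := meanWeight_le_top (a := a) hν hβ htop L1 hk (by rw [e1 top]; exact h1) i
      have g2 := meanWeight_le_top (a := a) hν hβ htop L2 hk (by rw [e2 top]; exact h2) i
      refine mul_le_mul ((abs_sub _ _).trans (by linarith [hL (L1 i), hL (L2 i)]))
        ((add_le_add g1 g2).trans_eq (by ring)) ?_ (by linarith [(abs_nonneg _).trans (hL top)])
      exact add_nonneg (Vale.Agent.P166.meanWeight_nonneg hβ l1 i)
        (Vale.Agent.P166.meanWeight_nonneg hβ l2 i)
  refine (Finset.sum_le_sum fun i _ => hb i).trans ?_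
  have hb0 : 0 ≤ 2 * L * (β / k) :=
    mul_nonneg (mul_nonneg zero_le_two ((abs_nonneg _).trans (hL top))) (by positivity)
  rw [← E.sum_comp, Fintype.sum_sum_type]
  simp only [L1, L2, Equiv.symm_apply_apply, Sum.elim_inl, Sum.elim_inr, if_true,
    Finset.sum_const_zero, zero_add]
  refine (Finset.sum_le_sum (g := fun _ => 2 * L * (β / k)) fun i _ => by
    split_ifs <;> simp [hb0]).trans ?_
  rw [Finset.sum_const, Finset.card_univ, Fintype.card_fin, nsmul_eq_mul]
  refine mul_le_mul_of_nonneg_right ?_ hb0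
  rw [← hm ω (Or.inl rfl), Nat.cast_sum]
  refine Finset.sum_le_sum fun j _ => ?_
  simp only [m]
  rw [Nat.cast_sub (min_le_left _ _), Nat.cast_min]
  rcases min_cases (cnt ω j : ℝ) (cnt ω' j) with ⟨h, _⟩ | ⟨h, _⟩ <;> rw [h]
  · simp
  · exact le_abs_self _

end Vale.Agent.P166F.Low.Sel
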