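import Vale.Agent.P166F.Low.Basic
import Vale.Agent.P166F.Low.Select.Press

/-!
P166: one step of the telescoping: the gain of a base system below an increment of the mean log-sum.
-/

namespace Vale.Agent.P166F.Low.Sel

open MeasureTheory ProbabilityTheory
open Vale.Agent.P166N.Spectrum (OrthInvLaw)

variable {K M n P : ℕ}

/-- The gain of a base system. -/
noncomputable def bgain (a : Atoms K) (β : ℝ) (ν : (N : ℕ) → Measure (Fin N → Fin N → ℝ))
    (i0 : Fin K) (n : ℕ) (s : ℝ) (y : CIdx Unit P → ℝ)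
    (b : Base (some i0 : Option (Fin K)) none M) : ℝ :=
  (∫ V, (pmean (ν M) fun U g => Real.log (pgibbs (dlA a β i0) n b.lbl none s y U g (r := 1) fun x =>
      spinW' (dlA a β i0) (some i0) (colNorm b.plus V) (b.fields U (x 0)))) ∂ν (M + 1)) -
    ∑ k, a.wt k * pmean (ν M) fun U g => Real.log (pgibbs (dlA a β i0) n b.lbl none s y U g (r := 1)
      fun x => delW' (dlA a β i0) (some i0) (some k) (b.fields U (x 0)))

section

variable {κ : Type} [Fintype κ] [DecidableEq κ]

omit [DecidableEq κ] in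
lemma sum_refl_sq (a x : κ → ℝ) : ∑ i, refl a x i ^ 2 = ∑ i, x i ^ 2 := by
  set p := ∑ j, a j * x j with hp
  set q := ∑ j, a j ^ 2 with hq
  have h : ∀ i, refl a x i ^ 2 = x i ^ 2 - 4 * p / q * (a i * x i) + 4 * p ^ 2 / q ^ 2 * a i ^ 2 :=
    fun i => by
      simp only [refl, ← hp, ← hq]
      ring
  simp only [h, Finset.sum_add_distrib, Finset.sum_sub_distrib, ← Finset.mul_sum, ← hp, ← hq]
  rcases eq_or_ne q 0 with h0 | h0
  · simp [h0]
  · field_simp
    ring

lemma spinQ_mem {dl : κ → ℝ} {Λ : ℝ} (h : ∀ j, 0 ≤ dl j ∧ dl j ≤ Λ) (e : κ) (T : κ → ℝ)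
    (z : Fld e → ℝ) {u : ℝ} (hu : u ^ 2 = 1) :
    0 ≤ spinQ dl e T z u ∧ spinQ dl e T z u ≤ Λ / 2 * ((∑ x, z x ^ 2) + 1) := by
  have hpos : ∀ {ι : Type} [Fintype ι] (w : ι → ℝ) (φ : ι → κ), 0 ≤ ∑ i, dl (φ i) * w i ^ 2 :=
    fun w φ => Finset.sum_nonneg fun i _ => mul_nonneg (h _).1 (sq_nonneg _)
  have hle : ∀ {ι : Type} [Fintype ι] (w : ι → ℝ) (φ : ι → κ),
      ∑ i, dl (φ i) * w i ^ 2 ≤ Λ * ∑ i, w i ^ 2 := fun w φ => by
    rw [Finset.mul_sum]
    exact Finset.sum_le_sum fun i _ => mul_le_mul_of_nonneg_right (h _).2 (sq_nonneg _)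
  refine ⟨add_nonneg (div_nonneg (hpos _ id) zero_le_two) (div_nonneg (hpos _ fun j : Slot e => j.1)
    zero_le_two), ?_⟩
  have h1 : ∑ j, frame e T (fill e z u) j ^ 2 = (∑ j : Slot e, z (Sum.inl j) ^ 2) + 1 := by
    simp only [frame, sum_refl_sq]
    rw [← Finset.sum_erase_add _ _ (Finset.mem_univ e),
      Finset.sum_subtype (p := fun j => j ≠ e) _ (fun j => by simp)]
    congr 1
    · exact Finset.sum_congr rfl fun j _ => by rw [fill, dif_neg j.2]
    · rw [fill, dif_pos rfl, hu]
  have a1 := hle (fun j => frame e T (fill e z u) j) id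
  have a2 := hle (fun j : Slot e => z (Sum.inr j)) fun j => j.1
  rw [h1] at a1
  simp only [id_eq] at a1
  rw [spinQ, probeQ, Fintype.sum_sum_type]
  nlinarith

lemma delQ_mem {dl : κ → ℝ} {Λ : ℝ} (h : ∀ j, 0 ≤ dl j ∧ dl j ≤ Λ) (e k : κ) (z : Fld e → ℝ) :
    0 ≤ delQ dl e k z ∧ delQ dl e k z ≤ Λ / 2 * ((∑ x, z x ^ 2) + 1) := by
  have hΛ : 0 ≤ Λ := (h e).1.trans (h e).2
  have a0 : 0 ≤ ∑ j : Slot e, if j.1 = k then 0 else dl j.1 * z (Sum.inl j) ^ 2 :=
    Finset.sum_nonneg fun j _ => by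
      split_ifs
      exacts [le_rfl, mul_nonneg (h _).1 (sq_nonneg _)]
  have b0 : 0 ≤ ∑ j : Slot e, dl j.1 * z (Sum.inr j) ^ 2 :=
    Finset.sum_nonneg fun j _ => mul_nonneg (h _).1 (sq_nonneg _)
  refine ⟨add_nonneg (div_nonneg a0 zero_le_two) (div_nonneg b0 zero_le_two), ?_⟩
  have a1 : ∑ j : Slot e, (if j.1 = k then 0 else dl j.1 * z (Sum.inl j) ^ 2) ≤
      Λ * ∑ j : Slot e, z (Sum.inl j) ^ 2 := by
    rw [Finset.mul_sum]
    refine Finset.sum_le_sum fun j _ => ?_
    split_ifs
    exacts [mul_nonneg hΛ (sq_nonneg _), mul_le_mul_of_nonneg_right (h _).2 (sq_nonneg _)]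
  have b1 : ∑ j : Slot e, dl j.1 * z (Sum.inr j) ^ 2 ≤ Λ * ∑ j : Slot e, z (Sum.inr j) ^ 2 := by
    rw [Finset.mul_sum]
    exact Finset.sum_le_sum fun j _ => mul_le_mul_of_nonneg_right (h _).2 (sq_nonneg _)
  rw [delQ, probeQ, Fintype.sum_sum_type]
  nlinarith

variable {dl : κ → ℝ} {e f : κ} {s : ℝ} {y : CIdx Unit P → ℝ} {ν : Measure (Fin M → Fin M → ℝ)}

omit [Fintype κ] in
lemma pgibbs_one (lbl : Fin M → κ) (U : Fin M → Fin M → ℝ) (g : EuclideanSpace ℝ (GIdx Unit P M))
    (Φ : (Fin M → Bool) → ℝ) :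
    pgibbs dl n lbl f s y U g (r := 1) (fun x => Φ (x 0)) =
      (∑ σ, Real.exp (pertH dl n lbl f s y U g σ) * Φ σ) /
        ∑ σ, Real.exp (pertH dl n lbl f s y U g σ) := by
  rw [pgibbs, pow_one]
  congr 1
  rw [← (Equiv.funUnique (Fin 1) (Fin M → Bool)).symm.sum_comp]
  simp

omit [Fintype κ] in
lemma pmean_one (lbl : Fin M → κ) (Ξ : (Fin M → Fin M → ℝ) → (Fin M → Bool) → ℝ) :
    pmean ν (fun U g => Real.log (pgibbs dl n lbl f s y U g (r := 1) fun x => Ξ U (x 0))) =
      ∫ z, Real.log ((∑ σ, Real.exp (pertH dl n lbl f s y z.1 z.2 σ) * Ξ z.1 σ) /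
        ∑ σ, Real.exp (pertH dl n lbl f s y z.1 z.2 σ))
        ∂ν.prod (stdGaussian (EuclideanSpace ℝ (GIdx Unit P M))) := by
  simp only [pmean]
  exact integral_congr_ae (Filter.Eventually.of_forall fun z =>
    congrArg Real.log (pgibbs_one lbl z.1 z.2 (Ξ z.1)))

lemma fields_sq_le (b : Base e f M) {U : Fin M → Fin M → ℝ}
    (hU : (Matrix.of U).transpose * Matrix.of U = 1) (σ : Fin M → Bool) :
    ∑ x, b.fields U σ x ^ 2 ≤ (M : ℝ) := by
  refine le_of_le_of_eq ?_ (sum_sq_coord hU σ)
  show ∑ x, coord U σ (b.row x) ^ 2 ≤ _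
  rw [← Finset.sum_image (f := fun i => coord U σ i ^ 2) (g := b.row) fun x _ x' _ h => b.inj h]
  exact Finset.sum_le_sum_of_subset_of_nonneg (Finset.subset_univ _) fun i _ _ => sq_nonneg _

/-- The log-average of a weight between `1` and `e ^ B`. -/
lemma log_avg_mem {X : Type} [Fintype X] [Nonempty X] (H Φ : X → ℝ) {B : ℝ}
    (hΦ : ∀ x, 1 ≤ Φ x ∧ Φ x ≤ Real.exp B) :
    Real.log (∑ x, Real.exp (H x) * Φ x) = Real.log (∑ x, Real.exp (H x)) +
        Real.log ((∑ x, Real.exp (H x) * Φ x) / ∑ x, Real.exp (H x)) ∧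
      0 ≤ Real.log ((∑ x, Real.exp (H x) * Φ x) / ∑ x, Real.exp (H x)) ∧
      Real.log ((∑ x, Real.exp (H x) * Φ x) / ∑ x, Real.exp (H x)) ≤ B := by
  have hZ : 0 < ∑ x, Real.exp (H x) := Finset.sum_pos (fun _ _ => Real.exp_pos _) Finset.univ_nonempty
  have h1 : ∑ x, Real.exp (H x) ≤ ∑ x, Real.exp (H x) * Φ x :=
    Finset.sum_le_sum fun x _ => le_mul_of_one_le_right (Real.exp_pos _).le (hΦ x).1
  have h2 : ∑ x, Real.exp (H x) * Φ x ≤ Real.exp B * ∑ x, Real.exp (H x) := by
    rw [Finset.mul_sum]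
    exact Finset.sum_le_sum fun x _ =>
      (mul_le_mul_of_nonneg_left (hΦ x).2 (Real.exp_pos _).le).trans_eq (mul_comm _ _)
  have hr := (one_le_div hZ).2 h1
  refine ⟨?_, Real.log_nonneg hr,
    (Real.log_le_log (zero_lt_one.trans_le hr) ((div_le_iff₀ hZ).2 h2)).trans_eq (Real.log_exp B)⟩
  rw [Real.log_div (hZ.trans_le h1).ne' hZ.ne']
  ring

omit [Fintype κ] in
lemma integrable_lavg (lbl : Fin M → κ) (hν : OrthInvLaw M ν)
    {Ξ : (Fin M → Fin M → ℝ) → (Fin M → Bool) → ℝ} (hm : ∀ σ, Measurable fun U => Ξ U σ) {B : ℝ}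
    (hB : ∀ U σ, (Matrix.of U).transpose * Matrix.of U = 1 → 1 ≤ Ξ U σ ∧ Ξ U σ ≤ Real.exp B) :
    Integrable (fun z : (Fin M → Fin M → ℝ) × EuclideanSpace ℝ (GIdx Unit P M) =>
      Real.log ((∑ σ, Real.exp (pertH dl n lbl f s y z.1 z.2 σ) * Ξ z.1 σ) /
        ∑ σ, Real.exp (pertH dl n lbl f s y z.1 z.2 σ)))
      (ν.prod (stdGaussian (EuclideanSpace ℝ (GIdx Unit P M)))) := by
  have := hν.prob
  have hp : ∀ σ, Measurable fun z : (Fin M → Fin M → ℝ) × EuclideanSpace ℝ (GIdx Unit P M) =>
      pertH dl n lbl f s y z.1 z.2 σ := fun σ => (continuous_pertH σ).measurable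
  have hmΞ : ∀ σ, Measurable fun z : (Fin M → Fin M → ℝ) × EuclideanSpace ℝ (GIdx Unit P M) =>
      Ξ z.1 σ := fun σ => (hm σ).comp measurable_fst
  refine Integrable.of_bound (Measurable.aestronglyMeasurable (by fun_prop)) B
    ((ae_orth_prod hν).mono fun z hz => ?_)
  obtain ⟨-, h2, h3⟩ := log_avg_mem (fun σ => pertH dl n lbl f s y z.1 z.2 σ) (fun σ => Ξ z.1 σ)
    fun σ => hB _ σ hz
  rw [Real.norm_eq_abs, abs_of_nonneg h2]
  exact h3

lemma measurable_spinQ {Ω : Type} [MeasurableSpace Ω] {T : Ω → κ → ℝ} {z : Ω → Fld e → ℝ} (u : ℝ)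
    (hT : ∀ j, Measurable fun ω => T ω j) (hz : ∀ x, Measurable fun ω => z ω x) :
    Measurable fun ω => spinQ dl e (T ω) (z ω) u := by
  have hfill : ∀ j, Measurable fun ω => fill e (z ω) u j := fun j => by
    unfold fill
    split_ifs
    exacts [measurable_const, hz _]
  have hrefl : ∀ (A X : Ω → κ → ℝ), (∀ j, Measurable fun ω => A ω j) →
      (∀ j, Measurable fun ω => X ω j) → ∀ j, Measurable fun ω => refl (A ω) (X ω) j := by
    intro A X hA hX j
    unfold refl
    fun_prop
  have hin : ∀ j, Measurable fun ω => refl (fun i => if i = e then (1 : ℝ) else 0) (fill e (z ω) u) j :=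
    hrefl _ _ (fun j => measurable_const) hfill
  have hfr : ∀ j, Measurable fun ω => frame e (T ω) (fill e (z ω) u) j :=
    hrefl (fun ω i => T ω i + if i = e then 1 else 0) _ (fun j => (hT j).add_const _) hin
  unfold spinQ probeQ
  fun_prop

end

variable {a : Atoms K} {β : ℝ} {i0 : Fin K} {ν : (N : ℕ) → Measure (Fin N → Fin N → ℝ)} {s : ℝ}
  {y : CIdx Unit P → ℝ}

/-- The total of the slopes above the lowest atom. -/
noncomputable def span (a : Atoms K) (β : ℝ) (i0 : Fin K) : ℝ := β * ∑ i, (a.lam i - a.lam i0)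

/-- The labels of the base. -/
def baseSizes (i0 : Fin K) (c : Fin K → ℕ) (D : ℕ) : Option (Fin K) → ℕ :=
  fun j => j.elim D fun i => if i = i0 then c i0 + 2 * K - 3 - D else c i - 2

lemma sum_decr1 {c : Fin K → ℕ} (hc : ∑ k, c k = M + 1) (h2 : ∀ k, 2 ≤ c k) (k : Fin K) :
    ∑ i, decr1 c k i = M := by
  simp only [decr1]
  rw [Finset.sum_tsub_distrib Finset.univ (f := c) (g := fun i => if i = k then 1 else 0)
    fun i _ => by split_ifs <;> linarith [h2 i], hc, Finset.sum_ite_eq']
  simp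

/-- The base of given counts, and the sizes after adding and deleting. -/
lemma exists_step_base {c : Fin K → ℕ} (hc : ∑ k, c k = M + 1) {D : ℕ} (h2 : ∀ k, 2 ≤ c k)
    (hD : D + 3 ≤ c i0) :
    ∃ b : Base (some i0 : Option (Fin K)) none M,
      (∀ j, csize b.lbl j = baseSizes i0 c D j) ∧
      (∀ j, csize b.plus j = lift i0 c (D + 1) j) ∧
      ∀ k, ∀ j, csize (b.del (some k)) j = lift i0 (decr1 c k) D j := by
  have hef : (some i0 : Option (Fin K)) ≠ none := Option.some_ne_none i0
  have hcb_sum : ∑ j, baseSizes i0 c D j = M := by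
    have h1 : ∑ i ∈ Finset.univ.erase i0, (c i - 2) + ∑ _i ∈ Finset.univ.erase i0, 2 =
        ∑ i ∈ Finset.univ.erase i0, c i := by
      rw [← Finset.sum_add_distrib]
      exact Finset.sum_congr rfl fun i _ => Nat.sub_add_cancel (h2 i)
    have h3 := Finset.add_sum_erase Finset.univ c (Finset.mem_univ i0)
    rw [Finset.sum_const, Finset.card_erase_of_mem (Finset.mem_univ i0), Finset.card_univ,
      Fintype.card_fin, smul_eq_mul] at h1
    rw [Fintype.sum_option, ← Finset.add_sum_erase _ _ (Finset.mem_univ i0),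
      Finset.sum_congr rfl fun i hi => (by simp [baseSizes, Finset.ne_of_mem_erase hi] :
        baseSizes i0 c D (some i) = c i - 2)]
    simp only [baseSizes, Option.elim_none, Option.elim_some, if_true]
    have := i0.pos
    omega
  have hFld : Fintype.card (Fld (some i0 : Option (Fin K))) ≤ baseSizes i0 c D (some i0) := by
    rw [Fintype.card_sum, Fintype.card_subtype_compl, Fintype.card_option, Fintype.card_fin,
      Fintype.card_subtype_eq]
    simp only [baseSizes, Option.elim_some, if_true]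
    omega
  obtain ⟨b, hb⟩ := exists_base (f := (none : Option (Fin K))) hcb_sum hFld
  refine ⟨b, hb, ?_, fun k => ?_⟩
  · refine eq_of_sum (some i0) ((sum_csize _).trans (hc.symm.trans (sum_lift i0 c (D + 1)).symm))
      fun j hj => ?_
    rw [csize_plus b hef hj, hb]
    cases j with
    | none => simp [baseSizes, lift]; omega
    | some i =>
      have hi : i ≠ i0 := fun h => hj (congrArg some h)
      have := h2 i
      simp [baseSizes, lift, hi]; omega
  · refine eq_of_sum (some i0) ((sum_csize _).trans ((sum_decr1 hc h2 k).symm.trans (sum_lift _ _ D).symm))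
      fun j hj => ?_
    rw [csize_del b hef _ hj, hb]
    cases j with
    | none =>
      simp only [baseSizes, lift, Option.elim_none, decr1, true_or, if_true, add_zero]
      split_ifs <;> omega
    | some i =>
      have hi : i ≠ i0 := fun h => hj (congrArg some h)
      have := h2 i
      simp only [baseSizes, lift, Option.elim_some, if_neg hi, decr1, Option.some_inj,
        reduceCtorEq, false_or, if_false]
      split_ifs <;> omega

variable (hβ : 0 < β) (hmin : ∀ i, a.lam i0 ≤ a.lam i) (hν : ∀ N, OrthInvLaw N (ν N))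
  (b : Base (some i0 : Option (Fin K)) none M)
include hβ hmin

/-- The bound on every energy of the fields. -/
lemma exp_mem {u : ℝ} (hu : 0 ≤ u) {U : Fin M → Fin M → ℝ} {σ : Fin M → Bool}
    (hU : (Matrix.of U).transpose * Matrix.of U = 1)
    (h : u ≤ span a β i0 / 2 * ((∑ x, b.fields U σ x ^ 2) + 1)) :
    1 ≤ Real.exp u ∧ Real.exp u ≤ Real.exp (span a β i0 / 2 * ((M : ℝ) + 1)) := by
  have hS : 0 ≤ span a β i0 := (dlA_mem a hβ hmin none).1.trans (dlA_mem a hβ hmin none).2
  exact ⟨Real.one_le_exp hu, Real.exp_le_exp.2 (h.trans (mul_le_mul_of_nonneg_left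
    (by linarith [fields_sq_le b hU σ]) (by positivity)))⟩

lemma delW_mem (k : Fin K) (U : Fin M → Fin M → ℝ) (σ : Fin M → Bool)
    (hU : (Matrix.of U).transpose * Matrix.of U = 1) :
    1 ≤ delW' (dlA a β i0) (some i0) (some k) (b.fields U σ) ∧
      delW' (dlA a β i0) (some i0) (some k) (b.fields U σ) ≤
        Real.exp (span a β i0 / 2 * ((M : ℝ) + 1)) :=
  exp_mem hβ hmin b (delQ_mem (dlA_mem a hβ hmin) _ _ _).1 hU (delQ_mem (dlA_mem a hβ hmin) _ _ _).2

lemma spinW_mem (T : Option (Fin K) → ℝ) (U : Fin M → Fin M → ℝ) (σ : Fin M → Bool)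
    (hU : (Matrix.of U).transpose * Matrix.of U = 1) :
    1 ≤ spinW' (dlA a β i0) (some i0) T (b.fields U σ) ∧
      spinW' (dlA a β i0) (some i0) T (b.fields U σ) ≤
        Real.exp (span a β i0 / 2 * ((M : ℝ) + 1)) := by
  obtain ⟨p1, p2⟩ := spinQ_mem (dlA_mem a hβ hmin) (some i0) T (b.fields U σ) (u := 1) (by norm_num)
  obtain ⟨q1, q2⟩ := spinQ_mem (dlA_mem a hβ hmin) (some i0) T (b.fields U σ) (u := -1) (by norm_num)
  have r := exp_mem hβ hmin b p1 hU p2
  have t := exp_mem hβ hmin b q1 hU q2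
  rw [spinW']
  constructor <;> linarith [r.1, r.2, t.1, t.2]

omit hβ hmin

lemma measurable_delW (k : Fin K) (σ : Fin M → Bool) :
    Measurable fun U => delW' (dlA a β i0) (some i0) (some k) (b.fields U σ) := by
  have hfm : ∀ x, Measurable fun U => b.fields U σ x := fun x => (continuous_coord σ _).measurable
  unfold delW' delQ probeQ
  refine Measurable.exp ?_
  refine ((Finset.measurable_fun_sum _ fun j _ => ?_).div_const 2).add
    ((Finset.measurable_fun_sum _ fun j _ => ((hfm _).pow_const 2).const_mul _).div_const 2)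
  split_ifs
  exacts [measurable_const, ((hfm _).pow_const 2).const_mul _]

lemma measurable_spinW {Ω : Type} [MeasurableSpace Ω] {T : Ω → Option (Fin K) → ℝ}
    {U : Ω → Fin M → Fin M → ℝ} (hT : ∀ j, Measurable fun ω => T ω j) (hU : Measurable U)
    (σ : Fin M → Bool) :
    Measurable fun ω => spinW' (dlA a β i0) (some i0) (T ω) (b.fields (U ω) σ) := by
  have hz : ∀ x, Measurable fun ω => b.fields (U ω) σ x :=
    fun x => ((continuous_coord σ _).measurable).comp hU
  exact (((measurable_spinQ 1 hT hz).exp).add ((measurable_spinQ (-1) hT hz).exp)).div_const 2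

include hβ hmin hν

/-- The mean log-sum after deleting one direction. -/
lemma del_eq (k : Fin K) :
    pmass (dlA a β i0) n (b.del (some k)) none s y (ν M) =
        pmass (dlA a β i0) n b.lbl none s y (ν M) + (pmean (ν M) fun U g =>
          Real.log (pgibbs (dlA a β i0) n b.lbl none s y U g (r := 1) fun x =>
            delW' (dlA a β i0) (some i0) (some k) (b.fields U (x 0)))) ∧
      0 ≤ pmean (ν M) fun U g => Real.log (pgibbs (dlA a β i0) n b.lbl none s y U g (r := 1) fun x =>
        delW' (dlA a β i0) (some i0) (some k) (b.fields U (x 0))) := by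
  have hef : (some i0 : Option (Fin K)) ≠ none := Option.some_ne_none i0
  have he : dlA a β i0 (some i0) = 0 := by simp [dlA]
  rw [pmass_del b hef he rfl (some k) (ν M),
    pmean_one b.lbl fun U σ => delW' (dlA a β i0) (some i0) (some k) (b.fields U σ)]
  refine ⟨?_, integral_nonneg_of_ae ((ae_orth_prod (hν M)).mono fun z hz =>
    (log_avg_mem (fun σ => pertH (dlA a β i0) n b.lbl none s y z.1 z.2 σ) _
      fun σ => delW_mem hβ hmin b k _ σ hz).2.1)⟩
  have hlog := integrable_log (n := n) (dl := dlA a β i0) (lbl := b.lbl) (f := none) (s := s)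
    (y := y) (hν M)
  have hl := integrable_lavg (n := n) (dl := dlA a β i0) (f := none) (s := s) (y := y) b.lbl (hν M)
    (Ξ := fun U σ => delW' (dlA a β i0) (some i0) (some k) (b.fields U σ))
    (measurable_delW b k) (B := span a β i0 / 2 * ((M : ℝ) + 1)) (delW_mem hβ hmin b k)
  simp only [pmass, pmean]
  rw [← integral_add hlog hl]
  refine integral_congr_ae ((ae_orth_prod (hν M)).mono fun z hz => ?_)
  have h := (log_avg_mem (fun σ => pertH (dlA a β i0) n b.lbl none s y z.1 z.2 σ)
    (fun σ => delW' (dlA a β i0) (some i0) (some k) (b.fields z.1 σ))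
    fun σ => delW_mem hβ hmin b k _ σ hz).1
  simp only [delW', ← Real.exp_add] at h ⊢
  exact h

omit hβ hmin hν

/-- The mean log-average of the weight of one spin. -/
noncomputable def spinI (a : Atoms K) (β : ℝ) (ν : (N : ℕ) → Measure (Fin N → Fin N → ℝ)) (n : ℕ)
    (s : ℝ) (y : CIdx Unit P → ℝ) (b : Base (some i0 : Option (Fin K)) none M)
    (T : Option (Fin K) → ℝ) : ℝ :=
  ∫ z, Real.log ((∑ σ, Real.exp (pertH (dlA a β i0) n b.lbl none s y z.1 z.2 σ) *
      spinW' (dlA a β i0) (some i0) T (b.fields z.1 σ)) /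
    ∑ σ, Real.exp (pertH (dlA a β i0) n b.lbl none s y z.1 z.2 σ))
    ∂(ν M).prod (stdGaussian (EuclideanSpace ℝ (GIdx Unit P M)))

lemma pmean_spin (T : Option (Fin K) → ℝ) :
    (pmean (ν M) fun U g => Real.log (pgibbs (dlA a β i0) n b.lbl none s y U g (r := 1) fun x =>
      spinW' (dlA a β i0) (some i0) T (b.fields U (x 0)))) = spinI a β ν n s y b T :=
  pmean_one b.lbl fun U σ => spinW' (dlA a β i0) (some i0) T (b.fields U σ)

include hν

lemma measurable_spinI :
    StronglyMeasurable fun V : Fin (M + 1) → Fin (M + 1) → ℝ =>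
      spinI a β ν n s y b (colNorm b.plus V) := by
  have := (hν M).prob
  refine StronglyMeasurable.integral_prod_right' (f := fun w : (Fin (M + 1) → Fin (M + 1) → ℝ) ×
    ((Fin M → Fin M → ℝ) × EuclideanSpace ℝ (GIdx Unit P M)) =>
      Real.log ((∑ σ, Real.exp (pertH (dlA a β i0) n b.lbl none s y w.2.1 w.2.2 σ) *
          spinW' (dlA a β i0) (some i0) (colNorm b.plus w.1) (b.fields w.2.1 σ)) /
        ∑ σ, Real.exp (pertH (dlA a β i0) n b.lbl none s y w.2.1 w.2.2 σ)))
    (Measurable.stronglyMeasurable ?_)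
  have hp : ∀ σ, Measurable fun w : (Fin (M + 1) → Fin (M + 1) → ℝ) ×
      ((Fin M → Fin M → ℝ) × EuclideanSpace ℝ (GIdx Unit P M)) =>
      pertH (dlA a β i0) n b.lbl none s y w.2.1 w.2.2 σ :=
    fun σ => (continuous_pertH σ).measurable.comp measurable_snd
  have hcol : ∀ j, Measurable fun w : (Fin (M + 1) → Fin (M + 1) → ℝ) ×
      ((Fin M → Fin M → ℝ) × EuclideanSpace ℝ (GIdx Unit P M)) => colNorm b.plus w.1 j := fun j => by
    refine (Finset.measurable_fun_sum _ fun i _ => ?_).sqrt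
    split_ifs
    exacts [(by fun_prop), measurable_const]
  have hw := measurable_spinW (a := a) (β := β) b hcol
    (measurable_fst.comp (measurable_snd (α := Fin (M + 1) → Fin (M + 1) → ℝ)
      (β := (Fin M → Fin M → ℝ) × EuclideanSpace ℝ (GIdx Unit P M))))
  simp only [Function.comp_apply] at hw
  fun_prop

include hβ hmin

lemma spinI_mem (T : Option (Fin K) → ℝ) :
    0 ≤ spinI a β ν n s y b T ∧ spinI a β ν n s y b T ≤ span a β i0 / 2 * ((M : ℝ) + 1) := by
  have := (hν M).prob
  have hm : ∀ σ, Measurable fun U => spinW' (dlA a β i0) (some i0) T (b.fields U σ) :=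
    measurable_spinW b (fun j => measurable_const) measurable_id
  refine ⟨integral_nonneg_of_ae ((ae_orth_prod (hν M)).mono fun z hz =>
    (log_avg_mem (fun σ => pertH (dlA a β i0) n b.lbl none s y z.1 z.2 σ) _
      fun σ => spinW_mem hβ hmin b T _ σ hz).2.1), ?_⟩
  exact (integral_mono_ae (integrable_lavg b.lbl (hν M) hm (spinW_mem hβ hmin b T))
    (integrable_const _) ((ae_orth_prod (hν M)).mono fun z hz =>
      (log_avg_mem (fun σ => pertH (dlA a β i0) n b.lbl none s y z.1 z.2 σ) _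
        fun σ => spinW_mem hβ hmin b T _ σ hz).2.2)).trans_eq (by simp)

lemma spin_add (T : Option (Fin K) → ℝ) :
    pmass (dlA a β i0) n b.lbl none s y (ν M) + Real.log 2 + spinI a β ν n s y b T =
      pmean (ν M) fun U g => Real.log (∑ σ, Real.exp (pertH (dlA a β i0) n b.lbl none s y U g σ) *
        (Real.exp (spinQ (dlA a β i0) (some i0) T (b.fields U σ) 1) +
          Real.exp (spinQ (dlA a β i0) (some i0) T (b.fields U σ) (-1)))) := by
  have := (hν M).prob
  have hm : ∀ σ, Measurable fun U => spinW' (dlA a β i0) (some i0) T (b.fields U σ) :=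
    measurable_spinW b (fun j => measurable_const) measurable_id
  have hlog := integrable_log (n := n) (dl := dlA a β i0) (lbl := b.lbl) (f := none) (s := s)
    (y := y) (hν M)
  simp only [pmass, pmean, spinI]
  rw [show Real.log 2 = ∫ _z, Real.log 2
      ∂(ν M).prod (stdGaussian (EuclideanSpace ℝ (GIdx Unit P M))) by simp,
    ← integral_add hlog (integrable_const _)]
  refine ((integral_add (hlog.add (integrable_const _))
    (integrable_lavg b.lbl (hν M) hm (spinW_mem hβ hmin b T))).symm).trans ?_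
  refine integral_congr_ae ((ae_orth_prod (hν M)).mono fun z hz => ?_)
  obtain ⟨h1, -⟩ := log_avg_mem (fun σ => pertH (dlA a β i0) n b.lbl none s y z.1 z.2 σ)
    (fun σ => spinW' (dlA a β i0) (some i0) T (b.fields z.1 σ))
    fun σ => spinW_mem hβ hmin b T _ σ hz
  have hpos : 0 < ∑ σ, Real.exp (pertH (dlA a β i0) n b.lbl none s y z.1 z.2 σ) *
      spinW' (dlA a β i0) (some i0) T (b.fields z.1 σ) :=
    Finset.sum_pos (fun σ _ => mul_pos (Real.exp_pos _)
      (zero_lt_one.trans_le (spinW_mem hβ hmin b T _ σ hz).1)) Finset.univ_nonempty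
  simp only [Pi.add_apply]
  rw [show (∑ σ, Real.exp (pertH (dlA a β i0) n b.lbl none s y z.1 z.2 σ) *
      (Real.exp (spinQ (dlA a β i0) (some i0) T (b.fields z.1 σ) 1) +
        Real.exp (spinQ (dlA a β i0) (some i0) T (b.fields z.1 σ) (-1)))) =
      2 * ∑ σ, Real.exp (pertH (dlA a β i0) n b.lbl none s y z.1 z.2 σ) *
        spinW' (dlA a β i0) (some i0) T (b.fields z.1 σ) by
    rw [Finset.mul_sum]
    exact Finset.sum_congr rfl fun σ _ => by rw [spinW']; ring,
    Real.log_mul two_ne_zero hpos.ne', h1]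
  ring

/-- The mean log-sum after adding a spin. -/
lemma plus_ge (hn : M + 1 ≤ n) (hy : y ∈ PBox s) (hs : 0 ≤ s) :
    0 ≤ (∫ V, (pmean (ν M) fun U g => Real.log (pgibbs (dlA a β i0) n b.lbl none s y U g (r := 1)
        fun x => spinW' (dlA a β i0) (some i0) (colNorm b.plus V) (b.fields U (x 0)))) ∂ν (M + 1)) ∧
      pmass (dlA a β i0) n b.lbl none s y (ν M) + Real.log 2 +
        (∫ V, (pmean (ν M) fun U g => Real.log (pgibbs (dlA a β i0) n b.lbl none s y U g (r := 1)
          fun x => spinW' (dlA a β i0) (some i0) (colNorm b.plus V) (b.fields U (x 0)))) ∂ν (M + 1)) ≤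
      pmass (dlA a β i0) n b.plus none s y (ν (M + 1)) := by
  have hef : (some i0 : Option (Fin K)) ≠ none := Option.some_ne_none i0
  have he : dlA a β i0 (some i0) = 0 := by simp [dlA]
  have := (hν (M + 1)).prob
  rw [integral_congr_ae (Filter.Eventually.of_forall fun V => pmean_spin b (colNorm b.plus V))]
  refine ⟨integral_nonneg fun V => (spinI_mem hβ hmin hν b _).1, ?_⟩
  have hFi : Integrable (fun V => spinI a β ν n s y b (colNorm b.plus V)) (ν (M + 1)) :=
    Integrable.of_bound (measurable_spinI hν b).aestronglyMeasurable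
      (span a β i0 / 2 * ((M : ℝ) + 1)) (Filter.Eventually.of_forall fun V => by
        rw [Real.norm_eq_abs, abs_of_nonneg (spinI_mem hβ hmin hν b _).1]
        exact (spinI_mem hβ hmin hν b _).2)
  refine le_of_eq_of_le ?_ (pmass_plus_ge b hef he rfl (hν M) (hν (M + 1)) hn hy hs)
  rw [← integral_congr_ae (Filter.Eventually.of_forall fun V =>
    spin_add hβ hmin hν b (colNorm b.plus V)), integral_add (integrable_const _) hFi, integral_const,
    probReal_univ, one_smul]

omit b

/-- The step. -/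
theorem step (P : ℕ) {s : ℝ} (hn : M + 1 ≤ n) (hs : 0 ≤ s) {c : Fin K → ℕ} (hc : ∑ k, c k = M + 1)
    {D : ℕ} (h2 : ∀ k, 2 ≤ c k) (hD : D + 3 ≤ c i0) {A : ℝ} (hA : 0 < A) (hAD : A ≤ (D : ℝ) + 1)
    (hAc : ∀ k, A ≤ (c k : ℝ) - 1) :
    ∃ b : Base (some i0 : Option (Fin K)) none M,
      (∀ j, csize b.lbl j = baseSizes i0 c D j) ∧
      ∀ y : CIdx Unit P → ℝ, y ∈ PBox s →
        bgain a β ν i0 n s y b ≤ pres a β ν i0 n (M + 1) s y (lift i0 c (D + 1)) -
          ∑ k, a.wt k * pres a β ν i0 n M s y (lift i0 (decr1 c k) D) - Real.log 2 ∧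
        -(2 * K * (span a β i0 * M / (2 * A))) ≤ bgain a β ν i0 n s y b ∧
        ∀ k, |pres a β ν i0 n M s y (lift i0 (decr1 c k) D) -
            pres a β ν i0 n M s y (lift i0 (decr1 c i0) D)| ≤ 2 * K * (span a β i0 * M / (2 * A)) := by
  obtain ⟨b, hb, hplus, hdel⟩ := exists_step_base hc h2 hD
  refine ⟨b, hb, fun y hy => ?_⟩
  have hef : (some i0 : Option (Fin K)) ≠ none := Option.some_ne_none i0
  have he : dlA a β i0 (some i0) = 0 := by simp [dlA]
  have hS : 0 ≤ span a β i0 := (dlA_mem a hβ hmin none).1.trans (dlA_mem a hβ hmin none).2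
  set X := 2 * (K : ℝ) * (span a β i0 * M / (2 * A))
  set G := fun k : Fin K => pmean (ν M) fun U g => Real.log (pgibbs (dlA a β i0) n b.lbl none s y U g
    (r := 1) fun x => delW' (dlA a β i0) (some i0) (some k) (b.fields U (x 0)))
  set base := pmass (dlA a β i0) n b.lbl none s y (ν M)
  have hGeq : ∀ k, pres a β ν i0 n M s y (lift i0 (decr1 c k) D) = base + G k := fun k => by
    rw [← pres_eq hν (hdel k)]
    exact (del_eq hβ hmin hν b k).1
  have hG : ∀ k, 0 ≤ G k ∧ G k ≤ X := by
    intro k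
    refine ⟨(del_eq hβ hmin hν b k).2, ?_⟩
    set cb := baseSizes i0 c D
    have hcb : ∑ j, cb j = M := (Finset.sum_congr rfl fun j _ => (hb j).symm).trans (sum_csize _)
    have hle : ∀ j, j ≠ some i0 → cb j ≤ lift i0 (decr1 c k) D j := fun j hj => by
      cases j with
      | none => simp only [cb, baseSizes, lift, decr1, Option.elim_none]; split_ifs <;> omega
      | some i =>
        have hi : i ≠ i0 := fun h => hj (congrArg some h)
        simp only [cb, baseSizes, lift, Option.elim_some, if_neg hi, decr1]; split_ifs <;> omega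
    have hKK : ∑ j ∈ Finset.univ.erase (some i0), (lift i0 (decr1 c k) D j - cb j) ≤ 2 * K := by
      refine (Finset.sum_le_card_nsmul _ _ 2 fun j hj => ?_).trans ?_
      · cases j with
        | none => simp only [cb, baseSizes, lift, decr1, Option.elim_none]; omega
        | some i =>
          have hi : i ≠ i0 := fun h => Finset.ne_of_mem_erase hj (congrArg some h)
          simp only [cb, baseSizes, lift, Option.elim_some, if_neg hi, decr1]; omega
      · simp [Finset.card_erase_of_mem, mul_comm]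
    have hm : cb (some i0) = lift i0 (decr1 c k) D (some i0) +
        ∑ j ∈ Finset.univ.erase (some i0), (lift i0 (decr1 c k) D j - cb j) := by
      rw [Finset.sum_tsub_distrib _ fun j hj => hle j (Finset.ne_of_mem_erase hj)]
      have t1 := Finset.add_sum_erase Finset.univ cb (Finset.mem_univ (some i0))
      have t2 := Finset.add_sum_erase Finset.univ (lift i0 (decr1 c k) D) (Finset.mem_univ (some i0))
      have t3 := Finset.sum_le_sum (s := Finset.univ.erase (some i0))
        fun j hj => hle j (Finset.ne_of_mem_erase hj)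
      rw [hcb] at t1
      rw [sum_lift, sum_decr1 hc h2 k] at t2
      omega
    have hch := (chain_bound (dl := dlA a β i0) (n := n) (s := s) (y := y) (hν M) he hef
      (dlA_mem a hβ hmin) hA _ cb (lift i0 (decr1 c k) D) hcb
      ((sum_lift _ _ _).trans (sum_decr1 hc h2 k))
      (by simp only [cb, baseSizes, lift, decr1, Option.elim_none]; split_ifs <;> omega)
      hle hm fun j hj => by
        cases j with
        | none => simpa [cb, baseSizes] using hAD
        | some i =>
          have hi : i ≠ i0 := fun h => hj (congrArg some h)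
          simp only [cb, baseSizes, Option.elim_some, if_neg hi, Nat.cast_sub (h2 i)]
          push_cast
          linarith [hAc i]).2
    have e1 : pmass (dlA a β i0) n (mkLbl none cb M) none s y (ν M) = base := (pres_eq hν hb).symm
    have e2 : pmass (dlA a β i0) n (mkLbl none (lift i0 (decr1 c k) D) M) none s y (ν M) = base + G k :=
      hGeq k
    rw [e1, e2] at hch
    have h3 := mul_le_mul_of_nonneg_right (show ((∑ j ∈ Finset.univ.erase (some i0),
      (lift i0 (decr1 c k) D j - cb j) : ℕ) : ℝ) ≤ 2 * K by exact_mod_cast hKK)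
      (show 0 ≤ span a β i0 * M / (2 * A) by positivity)
    change _ ≤ _ + _ * (span a β i0 * M / (2 * A)) at hch
    linarith
  obtain ⟨hF0, hFp⟩ := plus_ge hβ hmin hν b hn hy hs
  rw [pres_eq hν hplus] at hFp
  refine ⟨?_, ?_, fun k => ?_⟩
  · simp only [hGeq, mul_add, Finset.sum_add_distrib, ← Finset.sum_mul, a.total, one_mul]
    rw [bgain]
    linarith
  · have h1 : ∑ k, a.wt k * G k ≤ X :=
      (Finset.sum_le_sum fun k _ => mul_le_mul_of_nonneg_left (hG k).2 (a.pos k).le).trans_eq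
        (by rw [← Finset.sum_mul, a.total, one_mul])
    rw [bgain]
    linarith
  · rw [hGeq, hGeq, add_sub_add_left_eq_sub, abs_le]
    constructor <;> linarith [(hG k).1, (hG k).2, (hG i0).1, (hG i0).2]

end Vale.Agent.P166F.Low.Sel
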