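import Vale.Agent.P166F.Low.GGAvg
import Vale.Agent.P166F.Low.Select.Step

/-!
P166: the telescoping summed over sizes, feature sizes and coefficients, and the choice of one point
with a low gain and small defects.
-/

namespace Vale.Agent.P166F.Low.Sel

open MeasureTheory ProbabilityTheory Filter
open scoped Topology
open Vale.Agent.P166 (pressure)
open Vale.Agent.P166N.Spectrum (OrthInvLaw)

variable {K P : ℕ} {a : Atoms K} {β : ℝ} {i0 : Fin K}
  {ν : (N : ℕ) → Measure (Fin N → Fin N → ℝ)}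

/-- The free log-sum through the pressure of the labels. -/
lemma free_eq (hβ : 0 ≤ β) (hν : ∀ N, OrthInvLaw N (ν N)) {n M : ℕ} {s : ℝ} (hM : 0 < M) (D : ℕ)
    (ω : Fin M → Fin K) :
    pres a β ν i0 n M s (0 : CIdx Unit P → ℝ) (lift i0 (cnt ω) D) =
      M * Real.log 2 - β * a.lam i0 / 2 * M +
        M * ∫ U, pressure M β (fun i => a.lam (ω i)) U ∂ν M := by
  have := (hν M).prob
  set c := lift i0 (cnt ω) D
  have hcs : ∑ j, c j = M := (sum_lift _ _ _).trans (sum_csize ω)
  set L := mkLbl none c M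
  set ω' : Fin M → Fin K := fun i => (L i).getD i0
  have hcnt : ∀ k, cnt ω' k = cnt ω k := fun k => by
    have h1 : cnt ω' k = csize L (some k) + if k = i0 then csize L none else 0 := by
      simp only [cnt, csize, Finset.card_filter]
      have e : ∀ i, (if ω' i = k then 1 else 0) = (if L i = some k then 1 else 0) +
          if k = i0 then (if L i = none then 1 else 0) else 0 := fun i => by
        rcases hL : L i with _ | j
        · by_cases hk : k = i0
          · simp [ω', hL, hk]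
          · simp [ω', hL, hk, Ne.symm hk]
        · simp [ω', hL]
      simp only [e, Finset.sum_add_distrib]
      split_ifs <;> simp
    rw [h1, csize_mkLbl _ hcs, csize_mkLbl _ hcs]
    simp only [c, lift, Option.elim_none, Option.elim_some]
    split_ifs with hk
    · subst hk; omega
    · omega
  rw [← mean_perm (hν M).rowInvariant β hcnt]
  have key : ∀ U : Fin M → Fin M → ℝ, (Matrix.of U).transpose * Matrix.of U = 1 →
      Real.log (∑ σ, Real.exp (clsEnergy (dlA a β i0) L U σ)) =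
        M * Real.log 2 - β * a.lam i0 / 2 * M + M * pressure M β (fun i => a.lam (ω' i)) U := by
    intro U hU
    rw [Vale.Agent.P166.pressure_eq, Vale.Agent.P166.part, ← mul_assoc,
      mul_inv_cancel₀ (by exact_mod_cast hM.ne'), one_mul]
    have e : ∀ σ, Vale.Agent.P166.boltz β (fun i => a.lam (ω' i)) U σ =
        Real.exp (β * a.lam i0 / 2 * M) * Real.exp (clsEnergy (dlA a β i0) L U σ) := fun σ => by
      rw [Vale.Agent.P166.boltz, ← Real.exp_add, clsEnergy, ← sum_sq_coord hU σ, Finset.mul_sum,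
        Finset.mul_sum, Finset.sum_div, ← Finset.sum_add_distrib]
      congr 1
      refine Finset.sum_congr rfl fun i _ => ?_
      change β / 2 * (a.lam (ω' i) * coord U σ i ^ 2) = _
      rcases hL : L i with _ | j <;> simp [ω', hL, dlA] <;> ring
    simp only [e, ← Finset.mul_sum]
    have hS : 0 < ∑ σ, Real.exp (clsEnergy (dlA a β i0) L U σ) :=
      Finset.sum_pos (fun _ _ => Real.exp_pos _) Finset.univ_nonempty
    rw [Real.log_mul (inv_ne_zero (pow_ne_zero M two_ne_zero)) (mul_ne_zero (Real.exp_pos _).ne' hS.ne'),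
      Real.log_mul (Real.exp_pos _).ne' hS.ne', Real.log_exp, Real.log_inv, Real.log_pow]
    ring
  simp only [pres, pmass, pmean, pertH_zero]
  rw [integral_fun_fst fun U => Real.log (∑ σ, Real.exp (clsEnergy (dlA a β i0) L U σ)), probReal_univ,
    one_smul, integral_congr_ae ((hν M).orth.mono key),
    integral_add (integrable_const _)
      ((Vale.Agent.P166.integrable_pressure (hν M).rowInvariant hβ _).const_mul _),
    integral_const, probReal_univ, one_smul, integral_const_mul]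

/-- The average over labels at given size and feature size. -/
noncomputable def avgP (a : Atoms K) (β : ℝ) (ν : (N : ℕ) → Measure (Fin N → Fin N → ℝ))
    (i0 : Fin K) (n : ℕ) (s : ℝ) (y : CIdx Unit P → ℝ) (M D : ℕ) : ℝ :=
  iid a M fun ω => pres a β ν i0 n M s y (lift i0 (cnt ω) D)

/-- The increment at given labels. -/
noncomputable def incr1 (a : Atoms K) (β : ℝ) (ν : (N : ℕ) → Measure (Fin N → Fin N → ℝ))
    (i0 : Fin K) (n : ℕ) (s : ℝ) (y : CIdx Unit P → ℝ) (M D : ℕ) (c : Fin K → ℕ) : ℝ :=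
  pres a β ν i0 n (M + 1) s y (lift i0 c (D + 1)) -
    ∑ k, a.wt k * pres a β ν i0 n M s y (lift i0 (decr1 c k) D) - Real.log 2

/-- Bounds on all log-sums. -/
lemma abs_pres_le (hβ : 0 < β) (hmin : ∀ i, a.lam i0 ≤ a.lam i) (hν : ∀ N, OrthInvLaw N (ν N))
    (P : ℕ) :
    ∃ C : ℝ, 0 ≤ C ∧ ∀ (n M : ℕ) (s : ℝ) (y : CIdx Unit P → ℝ) (c : Option (Fin K) → ℕ), 0 ≤ s →
      y ∈ PBox s →
      (M : ℝ) * Real.log 2 - C * s ^ 2 ≤ pres a β ν i0 n M s y c ∧
      pres a β ν i0 n M s y c ≤ (M : ℝ) * Real.log 2 + span a β i0 * M / 2 + C * s ^ 2 ∧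
      |pres a β ν i0 n M s y c - pres a β ν i0 n M s (0 : CIdx Unit P → ℝ) c| ≤ C * s ^ 2 := by
  obtain ⟨C, hC⟩ := pmass_free (κ := Option (Fin K)) P
  refine ⟨max C 0, le_max_right _ _, fun n M s y c hs hy => ?_⟩
  have h1 : |pres a β ν i0 n M s y c - pres a β ν i0 n M s (0 : CIdx Unit P → ℝ) c| ≤ max C 0 * s ^ 2 :=
    (hC M n _ _ _ s y _ (hν M) hs hy).trans
      (mul_le_mul_of_nonneg_right (le_max_left _ _) (sq_nonneg s))
  obtain ⟨h2, h3⟩ := free_bounds (n := n) (lbl := mkLbl none c M) (f := (none : Option (Fin K)))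
    (s := s) (P := P) (hν M) (dlA_mem a hβ hmin)
  obtain ⟨h4, h5⟩ := abs_le.1 h1
  simp only [pres] at h4 h5 ⊢
  refine ⟨by linarith, ?_, h1⟩
  rw [show span a β i0 = β * ∑ i, (a.lam i - a.lam i0) from rfl]
  linarith

/-- The total of the increments. -/
lemma sum_incr (hβ : 0 ≤ β) (hν : ∀ N, OrthInvLaw N (ν N)) {n M₀ d : ℕ} {s : ℝ} {y : CIdx Unit P → ℝ}
    (hM₀ : M₀ ≤ n) {C₁ T e₂ : ℝ}
    (hC : ∀ M c, |pres a β ν i0 n M s y c - pres a β ν i0 n M s (0 : CIdx Unit P → ℝ) c| ≤ C₁)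
    (hlo : ∀ D, (M₀ : ℝ) * Real.log 2 - C₁ ≤ avgP a β ν i0 n s y M₀ D)
    (hup : ∀ D, avgP a β ν i0 n s y n D ≤ (n : ℝ) * Real.log 2 + T)
    (hcor : ∀ M ∈ Finset.Ico M₀ n, ∀ D ∈ Finset.Ico d (2 * d),
      iid a (M + 1) (fun ω => ∑ k, ((cnt ω k : ℝ) / (M + 1) - a.wt k) *
        pres a β ν i0 n M s y (lift i0 (decr1 (cnt ω) k) D)) ≤ e₂) :
    ∑ M ∈ Finset.Ico M₀ n, ∑ D ∈ Finset.Ico d (2 * d),
        iid a (M + 1) (fun ω => incr1 a β ν i0 n s y M D (cnt ω)) ≤
      d * (T + C₁) + ((n : ℝ) - M₀) * (2 * C₁ + d * e₂) := by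
  set A := avgP a β ν i0 n s y with hA
  have h1 : ∀ M D, iid a (M + 1) (fun ω => incr1 a β ν i0 n s y M D (cnt ω)) =
      A (M + 1) (D + 1) - A M D - Real.log 2 + iid a (M + 1) (fun ω => ∑ k,
        ((cnt ω k : ℝ) / (M + 1) - a.wt k) * pres a β ν i0 n M s y (lift i0 (decr1 (cnt ω) k) D)) := by
    intro M D
    simp only [hA, avgP]
    rw [← iid_del (a := a) fun c => pres a β ν i0 n M s y (lift i0 c D)]
    simp only [incr1, sub_mul, Finset.sum_sub_distrib, iid_sub, iid_const]
    ring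
  have h2 : ∀ M D D', 0 < M → |A M D - A M D'| ≤ 2 * C₁ := fun M D D' hM => by
    simp only [hA, avgP, ← iid_sub]
    refine abs_iid_le fun ω => ?_
    have g1 := abs_le.1 (hC M (lift i0 (cnt ω) D))
    have g2 := abs_le.1 (hC M (lift i0 (cnt ω) D'))
    have g3 : pres a β ν i0 n M s (0 : CIdx Unit P → ℝ) (lift i0 (cnt ω) D) =
        pres a β ν i0 n M s (0 : CIdx Unit P → ℝ) (lift i0 (cnt ω) D') := (free_eq hβ hν hM D ω).trans (free_eq hβ hν hM D' ω).symm
    rw [abs_le]
    constructor <;> linarith [g1.1, g1.2, g2.1, g2.2]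
  have h3 : ∀ M, ∑ D ∈ Finset.Ico d (2 * d), A (M + 1) (D + 1) ≤
      (∑ D ∈ Finset.Ico d (2 * d), A (M + 1) D) + 2 * C₁ := fun M => by
    rw [← sub_le_iff_le_add', ← Finset.sum_sub_distrib,
      Finset.sum_Ico_eq_sum_range]
    simp only [add_assoc]
    rw [Finset.sum_range_sub (fun k => A (M + 1) (d + k))]
    exact (le_abs_self _).trans (h2 _ _ _ M.succ_pos)
  calc _ ≤ ∑ M ∈ Finset.Ico M₀ n, ((∑ D ∈ Finset.Ico d (2 * d), A (M + 1) D) -
        (∑ D ∈ Finset.Ico d (2 * d), A M D) - d * Real.log 2 + (2 * C₁ + d * e₂)) := by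
        refine Finset.sum_le_sum fun M hM => ?_
        simp only [h1, Finset.sum_add_distrib, Finset.sum_sub_distrib, Finset.sum_const, Nat.card_Ico,
          nsmul_eq_mul, show 2 * d - d = d by omega]
        have := h3 M
        have h4 := (Finset.sum_le_sum fun D hD => hcor M hM D hD).trans_eq
          (by rw [Finset.sum_const, Nat.card_Ico, nsmul_eq_mul, show 2 * d - d = d by omega] :
            ∑ _D ∈ Finset.Ico d (2 * d), e₂ = (d : ℝ) * e₂)
        linarith
    _ = (∑ D ∈ Finset.Ico d (2 * d), A n D) - (∑ D ∈ Finset.Ico d (2 * d), A M₀ D) +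
        ((n : ℝ) - M₀) * (-(d * Real.log 2) + (2 * C₁ + d * e₂)) := by
        simp only [sub_eq_add_neg, add_assoc]
        rw [Finset.sum_add_distrib, Finset.sum_add_distrib, Finset.sum_const, Nat.card_Ico, nsmul_eq_mul,
          Nat.cast_sub hM₀]
        have := Finset.sum_Ico_sub (fun M => ∑ D ∈ Finset.Ico d (2 * d), A M D) hM₀
        rw [Finset.sum_sub_distrib] at this
        rw [Finset.sum_neg_distrib]
        linarith
    _ ≤ _ := by
        have g1 := Finset.sum_le_card_nsmul (Finset.Ico d (2 * d)) (fun D => A n D) _ fun D _ => hup D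
        have g2 := Finset.card_nsmul_le_sum (Finset.Ico d (2 * d)) (fun D => A M₀ D) _ fun D _ => hlo D
        simp only [Nat.card_Ico, nsmul_eq_mul, show 2 * d - d = d by omega] at g1 g2
        linarith

end Vale.Agent.P166F.Low.Sel
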