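import Vale.Agent.P166F.Low.Select.Tele

/-!
P166: the mean free log-sum over independent labels against the mean pressure of balanced blocks.
-/

namespace Vale.Agent.P166F.Low.Sel

open MeasureTheory Filter
open scoped Topology Classical
open Vale.Agent.P166 (pressure)
open Vale.Agent.P166N.Spectrum (OrthInvLaw)

variable {K : ℕ}

/-- Mean pressures of all labellings lie in one interval of length half the span. -/
lemma press_range (a : Atoms K) {β : ℝ} (hβ : 0 < β) {i0 : Fin K} (hmin : ∀ i, a.lam i0 ≤ a.lam i)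
    {ν : (N : ℕ) → Measure (Fin N → Fin N → ℝ)} (hν : ∀ N, OrthInvLaw N (ν N)) {n : ℕ} (hn : 0 < n)
    (ω : Fin n → Fin K) :
    β * a.lam i0 / 2 ≤ ∫ U, pressure n β (fun i => a.lam (ω i)) U ∂ν n ∧
      ∫ U, pressure n β (fun i => a.lam (ω i)) U ∂ν n ≤ β * a.lam i0 / 2 + span a β i0 / 2 := by
  have h := free_eq (P := 0) (a := a) (i0 := i0) (n := n) (s := 0) hβ.le hν hn 0 ω
  obtain ⟨h1, h2⟩ := free_bounds (n := n) (lbl := mkLbl none (lift i0 (cnt ω) 0) n)
    (f := (none : Option (Fin K))) (s := 0) (P := 0) (hν n) (dlA_mem a hβ hmin)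
  simp only [pres] at h
  rw [h] at h1 h2
  have hn' : (0 : ℝ) < n := Nat.cast_pos.2 hn
  constructor
  · refine le_of_mul_le_mul_left ?_ hn'
    linarith
  · refine le_of_mul_le_mul_left ?_ hn'
    rw [span]
    linarith

/-- Independent labels cost no more than balanced blocks. -/
lemma free_top (a : Atoms K) {β : ℝ} (hβ : 0 < β) {i0 : Fin K} (hmin : ∀ i, a.lam i0 ≤ a.lam i)
    {blk : (N : ℕ) → Fin N → Fin K} (hb : Balanced a blk)
    {ν : (N : ℕ) → Measure (Fin N → Fin N → ℝ)} (hν : ∀ N, OrthInvLaw N (ν N)) {θ : ℝ} (hθ : 0 < θ) :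
    ∀ᶠ n in atTop, ∀ (P D : ℕ) (s : ℝ),
      iid a n (fun ω => pres a β ν i0 n n s (0 : CIdx Unit P → ℝ) (lift i0 (cnt ω) D)) ≤
        n * Real.log 2 + n * (meanPress a β blk ν n - β * a.lam i0 / 2 + θ) := by
  obtain ⟨top, -, htop'⟩ := Finset.exists_max_image (Finset.univ : Finset (Fin K)) a.lam
    ⟨i0, Finset.mem_univ i0⟩
  have htop : ∀ k, a.lam k ≤ a.lam top := fun k => htop' k (Finset.mem_univ k)
  set L := ∑ j, |a.lam j|
  set S := span a β i0 / 2
  set C := 8 * K * L * β / a.wt top
  have hw : 0 < a.wt top := a.pos top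
  have hC : 0 ≤ C := by positivity
  set δ := min (min (a.wt top / 2) 1) (θ / (2 * (C + 1)))
  have hδ : 0 < δ := lt_min (lt_min (half_pos hw) one_pos) (by positivity)
  have hδ1 : δ ≤ 1 := (min_le_left _ _).trans (min_le_right _ _)
  have hδw : δ ≤ a.wt top / 2 := (min_le_left _ _).trans (min_le_left _ _)
  have hCδ : C * δ ≤ θ / 2 := by
    have h : δ * (2 * (C + 1)) ≤ θ := (le_div_iff₀ (by positivity)).1 (min_le_right _ _)
    nlinarith
  have hblk : ∀ᶠ n in atTop, Good a δ n (cnt (blk n)) := by
    refine Filter.eventually_all.2 fun k => ?_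
    filter_upwards [(hb k).eventually (Metric.closedBall_mem_nhds _ hδ), eventually_gt_atTop 0] with n h hn
    have hn' : (0 : ℝ) < n := Nat.cast_pos.2 hn
    simp only [Metric.mem_closedBall, Real.dist_eq] at h
    calc |(cnt (blk n) k : ℝ) - a.wt k * n| = |(cnt (blk n) k : ℝ) / n - a.wt k| * n := by
          rw [← abs_of_pos hn', ← abs_mul, abs_of_pos hn']
          congr 1
          field_simp
      _ ≤ δ * n := mul_le_mul_of_nonneg_right h hn'.le
  have hexp : Tendsto (fun n : ℕ => S * (2 * K * Real.exp (-(δ ^ 2 * n / 4)))) atTop (𝓝 0) := by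
    have h1 : Tendsto (fun n : ℕ => δ ^ 2 * (n : ℝ) / 4) atTop atTop :=
      (tendsto_natCast_atTop_atTop.const_mul_atTop (by positivity)).atTop_div_const (by norm_num)
    simpa using ((Real.tendsto_exp_neg_atTop_nhds_zero.comp h1).const_mul (2 * (K : ℝ))).const_mul S
  filter_upwards [hblk, hexp.eventually (gt_mem_nhds (half_pos hθ)), eventually_gt_atTop 0]
    with n hgood hsmall hn P D s
  have hn' : (0 : ℝ) < n := Nat.cast_pos.2 hn
  set p : (Fin n → Fin K) → ℝ := fun ω => ∫ U, pressure n β (fun i => a.lam (ω i)) U ∂ν n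
  have hS : 0 ≤ S := by
    have := press_range a hβ hmin hν hn (blk n)
    simp only [S]
    linarith
  have hp : ∀ ω, p ω ≤ meanPress a β blk ν n + θ / 2 +
      S * if Good a δ n (cnt ω) then 0 else 1 := by
    intro ω
    split_ifs with hω
    · have hk : ∀ φ : Fin n → Fin K, Good a δ n (cnt φ) → a.wt top * n / 2 ≤ cnt φ top := fun φ h => by
        have h1 := (abs_le.1 (h top)).1
        have h2 := mul_le_mul_of_nonneg_right hδw hn'.le
        linarith
      have h := (le_abs_self _).trans (mean_close (a := a) (β := β) (hν n).rowInvariant hβ.le htop ω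
        (blk n) (k := a.wt top * n / 2) (by positivity) (hk ω hω) (hk _ hgood) (L := L)
        fun j => Finset.single_le_sum (fun i _ => abs_nonneg (a.lam i)) (Finset.mem_univ j))
      have hs : ∑ j, |(cnt ω j : ℝ) - cnt (blk n) j| ≤ K * (2 * (δ * n)) := by
        refine (Finset.sum_le_sum fun j _ => (?_ : _ ≤ 2 * (δ * n))).trans_eq (by simp)
        refine (abs_sub_le _ (a.wt j * n) _).trans ?_
        rw [abs_sub_comm (a.wt j * n)]
        linarith [hω j, hgood j]
      have h3 : (∑ j, |(cnt ω j : ℝ) - cnt (blk n) j|) * (2 * L * (β / (a.wt top * n / 2))) ≤ θ / 2 := by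
        refine le_trans (mul_le_mul_of_nonneg_right hs (by positivity)) (le_of_eq_of_le ?_ hCδ)
        simp only [C]
        field_simp
        ring
      simp only [p, meanPress]
      linarith
    · have h1 := (press_range a hβ hmin hν hn ω).2
      have h2 := (press_range a hβ hmin hν hn (blk n)).1
      simp only [p, meanPress, S]
      linarith
  simp only [fun ω : Fin n → Fin K => free_eq (P := P) (a := a) (i0 := i0) (n := n) (s := s) hβ.le hν hn D ω]
  rw [iid_add, iid_const, iid_mul_left]
  have h1 : iid a n p ≤ meanPress a β blk ν n + θ / 2 +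
      S * iid a n (fun ω => if Good a δ n (cnt ω) then 0 else 1) := by
    refine (iid_mono hp).trans_eq ?_
    rw [iid_add, iid_const, iid_mul_left]
  have h2 := mul_le_mul_of_nonneg_left (iid_bad (M := n) a hδ.le hδ1) hS
  have h3 : iid a n p ≤ meanPress a β blk ν n + θ := by linarith
  have h4 := mul_le_mul_of_nonneg_left h3 hn'.le
  simp only [p] at h4
  linarith

end Vale.Agent.P166F.Low.Sel
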